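import Vale.Agent.P027.R2.H250.LucasDef
import Vale.Agent.P027.R2.H250.Group

set_option linter.all false

/-! Divisibility of the Lucas numbers of `(1 + √-7) / 2` by primes: rank of apparition, ratios. -/

namespace Vale.Agent.P027.T2

open Vale.Agent.P027

theorem UV_cross (m d : ℕ) : V m * U (m + d) - U m * V (m + d) = 2 * 2 ^ m * U d := by
  have h1 := U_add m d
  have h2 := V_add m d
  have h3 := UV_norm m
  have : 2 * (V m * U (m + d) - U m * V (m + d)) = 2 * (2 * 2 ^ m * U d) := by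
    linear_combination V m * h1 - U m * h2 + U d * h3
  linarith

/-- three term recursion with step `d` -/
theorem U_step_d (m d : ℕ) : U (m + 2 * d) = V d * U (m + d) - 2 ^ d * U m := by
  have h1 := U_add (m + d) d
  have h2 := UV_cross d m
  rw [add_comm d m] at h2
  have e : m + d + d = m + 2 * d := by ring
  rw [e] at h1
  have : 2 * U (m + 2 * d) = 2 * (V d * U (m + d) - 2 ^ d * U m) := by
    linear_combination h1 - h2
  linarith

section
variable {q : ℕ} (hq : q.Prime) (hq2 : q ≠ 2)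
include hq hq2

theorem not_dvd_two_pow (k : ℕ) : ¬ (q : ℤ) ∣ 2 ^ k := by
  intro h
  have h1 : (q : ℤ) ∣ 2 := Int.Prime.dvd_pow' hq h
  have h2 : q ∣ 2 := by exact_mod_cast h1
  exact hq2 ((Nat.prime_dvd_prime_iff_eq hq Nat.prime_two).1 h2)

theorem not_dvd_V {n : ℕ} (h : (q : ℤ) ∣ U n) : ¬ (q : ℤ) ∣ V n := by
  intro hV
  have h1 := UV_norm n
  have h2 : (q : ℤ) ∣ 2 ^ (n + 2) := by
    have : (2 : ℤ) ^ (n + 2) = V n * V n + U n * (7 * U n) := by
      rw [pow_add]; linarith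
    rw [this]
    exact dvd_add (hV.mul_right _) (h.mul_right _)
  exact not_dvd_two_pow hq hq2 _ h2

theorem dvd_U_add {m n : ℕ} (h : (q : ℤ) ∣ U m) : (q : ℤ) ∣ U (m + n) ↔ (q : ℤ) ∣ U n := by
  have h1 := U_add m n
  have hp : Prime (q : ℤ) := Nat.prime_iff_prime_int.1 hq
  constructor
  · intro h2
    have h3 : (q : ℤ) ∣ V m * U n := by
      have : V m * U n = 2 * U (m + n) - U m * V n := by linarith
      rw [this]
      exact dvd_sub (h2.mul_left _) (h.mul_right _)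
    exact (hp.dvd_or_dvd h3).resolve_left (not_dvd_V hq hq2 h)
  · intro h2
    have h3 : (q : ℤ) ∣ 2 * U (m + n) := by
      rw [h1]
      exact dvd_add (h.mul_right _) (h2.mul_left _)
    refine (hp.dvd_or_dvd h3).resolve_left ?_
    have := not_dvd_two_pow hq hq2 1
    simpa using this

theorem dvd_U_mul {m : ℕ} (h : (q : ℤ) ∣ U m) (k : ℕ) : (q : ℤ) ∣ U (m * k) := by
  induction k with
  | zero => rw [mul_zero, U_zero]; exact dvd_zero _
  | succ k ih =>
    rw [mul_add, mul_one]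
    exact (dvd_U_add hq hq2 ih).2 h

theorem dvd_U_gcd (m n : ℕ) : (q : ℤ) ∣ U m → (q : ℤ) ∣ U n → (q : ℤ) ∣ U (Nat.gcd m n) := by
  induction m, n using Nat.gcd.induction with
  | H0 n => intro _ h; simpa using h
  | H1 m n hm ih =>
    intro h1 h2
    rw [Nat.gcd_rec]
    refine ih ?_ h1
    have h3 := dvd_U_mul hq hq2 h1 (n / m)
    refine (dvd_U_add hq hq2 h3).1 ?_
    rw [Nat.div_add_mod]
    exact h2

/-- the rank of apparition of a prime factor of `V (2 ^ j)` -/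
theorem rank_V {j : ℕ} (h : (q : ℤ) ∣ V (2 ^ j)) (n : ℕ) :
    (q : ℤ) ∣ U n ↔ 2 ^ (j + 1) ∣ n := by
  have h1 : (q : ℤ) ∣ U (2 ^ (j + 1)) := by
    rw [pow_succ', U_two_mul]
    exact h.mul_left _
  have h2 : ¬ (q : ℤ) ∣ U (2 ^ j) := fun h3 => not_dvd_V hq hq2 h3 h
  constructor
  · intro h3
    have h4 := dvd_U_gcd hq hq2 _ _ h3 h1
    obtain ⟨i, hi, hi2⟩ := (Nat.dvd_prime_pow Nat.prime_two).1 (Nat.gcd_dvd_right n (2 ^ (j + 1)))
    rcases Nat.lt_or_ge j i with h5 | h5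
    · have : i = j + 1 := by omega
      subst this
      rw [← hi2]
      exact Nat.gcd_dvd_left _ _
    · exfalso
      apply h2
      rw [hi2] at h4
      obtain ⟨c, hc⟩ := pow_dvd_pow 2 h5
      rw [hc]
      exact dvd_U_mul hq hq2 h4 c
  · rintro ⟨c, rfl⟩
    exact dvd_U_mul hq hq2 h1 c

/-- a prime factor of `V (2 ^ j)` is large -/
theorem rank_V_le {j : ℕ} (h : (q : ℤ) ∣ V (2 ^ j)) : 2 ^ (j + 1) ≤ q + 1 := by
  have := Fact.mk hq
  have hr := rank_V hq hq2 h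
  obtain ⟨r, hrd⟩ : ∃ r, r = 2 ^ (j + 1) := ⟨_, rfl⟩
  rw [← hrd] at hr ⊢
  have hne : ∀ n, 1 ≤ n → n < r → ((U n : ℤ) : ZMod q) ≠ 0 := by
    intro n h1 h2 h3
    rw [ZMod.intCast_zmod_eq_zero_iff_dvd, hr] at h3
    exact absurd (Nat.le_of_dvd (by omega) h3) (by omega)
  have hinj : ∀ m n, 1 ≤ m → m < n → n < r →
      ((V m : ℤ) : ZMod q) / (U m : ℤ) ≠ (V n : ℤ) / (U n : ℤ) := by
    intro m n h1 h2 h3 h4
    rw [div_eq_div_iff (hne m h1 (by omega)) (hne n (by omega) h3)] at h4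
    obtain ⟨d, rfl⟩ : ∃ d, n = m + d := ⟨n - m, by omega⟩
    have h5 := UV_cross m d
    have h6 : (q : ℤ) ∣ 2 ^ (m + 1) * U d := by
      have e : (2 : ℤ) ^ (m + 1) * U d = V m * U (m + d) - U m * V (m + d) := by
        rw [h5]; ring
      rw [e, ← ZMod.intCast_zmod_eq_zero_iff_dvd]
      push_cast
      rw [h4]
      ring
    have hp : Prime (q : ℤ) := Nat.prime_iff_prime_int.1 hq
    have h7 := (hp.dvd_or_dvd h6).resolve_left (not_dvd_two_pow hq hq2 _)
    rw [hr] at h7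
    exact absurd (Nat.le_of_dvd (by omega) h7) (by omega)
  have hcard : (Finset.Ico 1 r).card ≤ (Finset.univ : Finset (ZMod q)).card := by
    refine Finset.card_le_card_of_injOn (fun n => ((V n : ℤ) : ZMod q) / (U n : ℤ))
      (fun _ _ => Finset.mem_univ _) ?_
    intro m hm n hn hmn
    simp only [Finset.coe_Ico, Set.mem_Ico] at hm hn
    simp only at hmn
    rcases lt_trichotomy m n with h1 | h1 | h1
    · exact absurd hmn (hinj m n hm.1 h1 hn.2)
    · exact h1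
    · exact absurd hmn.symm (hinj n m hn.1 h1 hm.2)
  rw [Nat.card_Ico, Finset.card_univ, ZMod.card] at hcard
  omega

end

/-- the statement wanted for the reading lemma -/
theorem rank_V' {q j : ℕ} (hq : q.Prime) (hq2 : q ≠ 2) (h : (q : ℤ) ∣ V (2 ^ j)) :
    (∀ n, (q : ℤ) ∣ U n ↔ 2 ^ (j + 1) ∣ n) ∧ 2 ^ (j + 1) ≤ q + 1 :=
  ⟨rank_V hq hq2 h, rank_V_le hq hq2 h⟩

theorem ratio_aux {q : ℤ} {g : ℕ} (h : q ∣ U g) (x : ℕ) :
    (∃ W n : ℤ, U (2 * (g * x)) = U (2 * g) * W ∧ W * 2 ^ g = x * 2 ^ (g * x) + q * n) ∧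
    (∃ W n : ℤ, U (2 * (g * (x + 1))) = U (2 * g) * W ∧
      W * 2 ^ g = (x + 1) * 2 ^ (g * (x + 1)) + q * n) := by
  induction x with
  | zero =>
    refine ⟨⟨0, 0, ?_, ?_⟩, ⟨1, 0, ?_, ?_⟩⟩
    · simp [U_zero]
    · simp
    · simp
    · simp
  | succ x ih =>
    obtain ⟨⟨W, n, h1, h2⟩, ⟨W', n', h3, h4⟩⟩ := ih
    refine ⟨⟨W', n', h3, by push_cast; exact h4⟩, ?_⟩
    obtain ⟨c, hc⟩ := h
    have h5 := U_step_d (2 * (g * x)) (2 * g)
    have e1 : 2 * (g * x) + 2 * (2 * g) = 2 * (g * (x + 1 + 1)) := by ring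
    have e2 : 2 * (g * x) + 2 * g = 2 * (g * (x + 1)) := by ring
    rw [e1, e2, h1, h3] at h5
    have h6 := V_two_mul g
    have h7 := UV_norm g
    have h8 : V (2 * g) = 2 * 2 ^ g - q * (7 * c * U g) := by
      rw [h6]
      have : q * (7 * c * U g) = 7 * U g ^ 2 := by
        rw [show 7 * U g ^ 2 = 7 * U g * U g by ring]
        nth_rewrite 2 [hc]
        ring
      rw [this]
      linarith
    refine ⟨V (2 * g) * W' - 2 ^ (2 * g) * W,
      V (2 * g) * n' - 2 ^ (2 * g) * n - 7 * c * U g * ((x + 1) * 2 ^ (g * (x + 1))), ?_, ?_⟩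
    · rw [h5]; ring
    · have e3 : (2 : ℤ) ^ (g * (x + 1 + 1)) = 2 ^ g * 2 ^ (g * (x + 1)) := by
        rw [← pow_add]; congr 1; ring
      have e4 : (2 : ℤ) ^ (g * (x + 1)) = 2 ^ g * 2 ^ (g * x) := by
        rw [← pow_add]; congr 1; ring
      have e5 : (2 : ℤ) ^ (2 * g) = 2 ^ g * 2 ^ g := by
        rw [← pow_add]; congr 1; ring
      push_cast
      have e6 : (V (2 * g) * W' - 2 ^ (2 * g) * W) * 2 ^ g =
          V (2 * g) * (W' * 2 ^ g) - 2 ^ (2 * g) * (W * 2 ^ g) := by ring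
      rw [e6, h4, h2, e3, e5]
      rw [h8, e4]
      ring

/-- reading of a coded number at a divisor of `U g` -/
theorem ratio_mod {q : ℤ} {g : ℕ} (hg : 1 ≤ g) (h : q ∣ U g) (x : ℕ) :
    ∃ (n : ℤ) (t : ℕ), ay (g * x) / ay g = x + q * n / 2 ^ t := by
  obtain ⟨⟨W, n, h1, h2⟩, -⟩ := ratio_aux h x
  refine ⟨n, g * x, ?_⟩
  have h0 : (U (2 * g) : ℚ) ≠ 0 := by
    exact_mod_cast U_ne_zero (n := 2 * g) (by omega)
  have h3 : (W : ℚ) * 2 ^ g = x * 2 ^ (g * x) + q * n := by exact_mod_cast h2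
  unfold ay
  rw [h1]
  push_cast
  have e1 : (2 : ℚ) ^ (g * x + 1) = 2 ^ (g * x) * 2 := pow_succ _ _
  have e2 : (2 : ℚ) ^ (g + 1) = 2 ^ g * 2 := pow_succ _ _
  rw [e1, e2]
  have h4 : (2 : ℚ) ^ (g * x) ≠ 0 := by positivity
  have h5 : (2 : ℚ) ^ g ≠ 0 := by positivity
  have : (U (2 * g) : ℚ) * W / (2 ^ (g * x) * 2) / ((U (2 * g) : ℚ) / (2 ^ g * 2)) =
      (W * 2 ^ g) / 2 ^ (g * x) := by
    field_simp
  rw [this, h3, add_div, mul_div_assoc, div_self h4, mul_one]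

/-! orientation -/

theorem four_dvd_sub (m : ℕ) : (4 : ℤ) ∣ U (m + 2) - V (m + 2) ∧ (4 : ℤ) ∣ U (m + 3) - V (m + 3) := by
  induction m with
  | zero => constructor <;> norm_num [U, V]
  | succ m ih =>
    obtain ⟨⟨a, ha⟩, ⟨b, hb⟩⟩ := ih
    refine ⟨⟨b, hb⟩, ?_⟩
    have e : m + 1 + 3 = (m + 2) + 2 := by ring
    rw [e, U_rec, V_rec]
    have e2 : m + 2 + 1 = m + 3 := by ring
    rw [e2]
    exact ⟨b - 2 * a, by linarith⟩

theorem four_dvd {n : ℕ} (hn : 1 ≤ n) : (4 : ℤ) ∣ U (2 * n) - V (2 * n) := by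
  have h := (four_dvd_sub (2 * n - 2)).1
  have e : 2 * n - 2 + 2 = 2 * n := by omega
  rwa [e] at h

theorem ay_div_ax (n : ℕ) : ay n / ax n = U (2 * n) / V (2 * n) := by
  unfold ay ax
  have h : (2 : ℚ) ^ (n + 1) ≠ 0 := by positivity
  rw [div_div_div_cancel_right₀ h]

theorem orient_pos {n : ℕ} (hn : 1 ≤ n) : 0 ≤ padicValRat 2 ((ay n / ax n - 1) / 4) := by
  rw [ay_div_ax]
  obtain ⟨c, hc⟩ := four_dvd hn
  have hV : Odd (V (2 * n)) := V_odd (by omega)
  have hV0 : (V (2 * n) : ℚ) ≠ 0 := by exact_mod_cast V_ne_zero (n := 2 * n) (by omega)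
  have e : ((U (2 * n) : ℚ) / V (2 * n) - 1) / 4 = (c : ℚ) / V (2 * n) := by
    have : (U (2 * n) : ℚ) - V (2 * n) = 4 * c := by exact_mod_cast hc
    field_simp
    linarith
  rw [e]
  by_cases h0 : (c : ℚ) = 0
  · rw [h0]; simp
  · rw [padicValRat.div h0 hV0, val_odd hV, sub_zero, padicValRat.of_int]
    exact_mod_cast Nat.zero_le _

theorem orient_neg (n : ℕ) : padicValRat 2 ((-ay n / ax n - 1) / 4) < 0 := by
  rw [neg_div, ay_div_ax]
  have v4 : padicValRat 2 (4 : ℚ) = 2 := by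
    have e : (4 : ℚ) = 2 ^ 2 := by norm_num
    have h2 : padicValRat 2 (2 : ℚ) = 1 := by
      have := padicValRat.self (p := 2) (by norm_num)
      exact_mod_cast this
    rw [e, padicValRat.pow, h2]
    norm_num
  rcases Nat.eq_zero_or_pos n with h | hn
  · subst h
    have e : ((-((U (2 * 0) : ℤ) : ℚ) / ((V (2 * 0) : ℤ) : ℚ) - 1) / 4) = -(1 / 4) := by
      simp [U_zero, V_zero]
      norm_num
    have e' : (-(((U (2 * 0) : ℤ) : ℚ) / ((V (2 * 0) : ℤ) : ℚ)) - 1) / 4 = -(1 / 4) := by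
      rw [← neg_div]; exact e
    rw [e', padicValRat.neg, padicValRat.div one_ne_zero (by norm_num), padicValRat.one, v4]
    norm_num
  · obtain ⟨c, hc⟩ := four_dvd hn
    have hV : Odd (V (2 * n)) := V_odd (by omega)
    have hV0 : (V (2 * n) : ℚ) ≠ 0 := by exact_mod_cast V_ne_zero (n := 2 * n) (by omega)
    obtain ⟨k, hk⟩ := id hV
    have hodd : Odd (V (2 * n) + 2 * c) := by
      rw [hk]; exact ⟨k + c, by ring⟩
    have hodd0 : ((V (2 * n) + 2 * c : ℤ) : ℚ) ≠ 0 := by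
      have : V (2 * n) + 2 * c ≠ 0 := by
        intro h
        rw [h] at hodd
        simp at hodd
      exact_mod_cast this
    have e : (-((U (2 * n) : ℚ) / V (2 * n)) - 1) / 4 =
        -(((V (2 * n) + 2 * c : ℤ) : ℚ) / V (2 * n) / 2) := by
      have : (U (2 * n) : ℚ) = V (2 * n) + 4 * c := by
        have : (U (2 * n) : ℚ) - V (2 * n) = 4 * c := by exact_mod_cast hc
        linarith
      rw [this]
      push_cast
      field_simp
      ring
    have v2 : padicValRat 2 (2 : ℚ) = 1 := by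
      have := padicValRat.self (p := 2) (by norm_num)
      exact_mod_cast this
    rw [e, padicValRat.neg, padicValRat.div (div_ne_zero hodd0 hV0) (by norm_num),
      padicValRat.div hodd0 hV0, val_odd hV, val_odd hodd, v2]
    norm_num

end Vale.Agent.P027.T2
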