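import Mathlib

set_option linter.all false

/-! Integrality of an element of a Galois number field, tested outside `p` and in the `p`-adic
numbers. -/

namespace Vale.Agent.P027.TD

open Polynomial

theorem coeff_mem {L : Type} [Field L] (S : Subring L) (s : Multiset L) (hs : ∀ r ∈ s, r ∈ S) :
    ∀ n, ((s.map (fun a => X - C a)).prod).coeff n ∈ S := by
  induction s using Multiset.induction_on with
  | empty =>
    intro n
    rw [Multiset.map_zero, Multiset.prod_zero, coeff_one]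
    split_ifs
    · exact S.one_mem
    · exact S.zero_mem
  | cons a s ih =>
    intro n
    rw [Multiset.map_cons, Multiset.prod_cons, sub_mul, coeff_sub, coeff_C_mul]
    have h1 := ih fun r hr => hs r (Multiset.mem_cons_of_mem hr)
    refine S.sub_mem ?_ (S.mul_mem (hs a (Multiset.mem_cons_self a s)) (h1 n))
    cases n with
    | zero => rw [coeff_X_mul_zero]; exact S.zero_mem
    | succ n => rw [coeff_X_mul]; exact h1 n

variable {K : Type} [Field K] [NumberField K] {p : ℕ} [hp : Fact p.Prime]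

/-- the ring of elements whose denominator is a power of `p` -/
def pint (K : Type) [Field K] (p : ℕ) : Subring K where
  carrier := {x | ∃ j : ℕ, IsIntegral ℤ ((p : K) ^ j * x)}
  mul_mem' := by
    rintro x y ⟨i, hi⟩ ⟨j, hj⟩
    refine ⟨i + j, ?_⟩
    rw [show (p : K) ^ (i + j) * (x * y) = ((p : K) ^ i * x) * ((p : K) ^ j * y) by
      rw [pow_add]; ring]
    exact hi.mul hj
  one_mem' := ⟨0, by rw [pow_zero, one_mul]; exact isIntegral_one⟩
  add_mem' := by
    rintro x y ⟨i, hi⟩ ⟨j, hj⟩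
    refine ⟨i + j, ?_⟩
    rw [show (p : K) ^ (i + j) * (x + y) =
      ((p : K) ^ j) * ((p : K) ^ i * x) + ((p : K) ^ i) * ((p : K) ^ j * y) by
      rw [pow_add]; ring]
    have h1 : ∀ i : ℕ, IsIntegral ℤ ((p : K) ^ i) := by
      intro i
      have h2 := (isIntegral_algebraMap (R := ℤ) (A := K) (x := (p : ℤ))).pow i
      simpa using h2
    exact ((h1 j).mul hi).add ((h1 i).mul hj)
  zero_mem' := ⟨0, by rw [mul_zero]; exact isIntegral_zero⟩
  neg_mem' := by
    rintro x ⟨i, hi⟩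
    exact ⟨i, by rw [mul_neg]; exact hi.neg⟩

theorem mem_pint {x : K} : x ∈ pint K p ↔ ∃ j : ℕ, IsIntegral ℤ ((p : K) ^ j * x) := Iff.rfl

theorem pint_map (g : K ≃ₐ[ℚ] K) {x : K} (hx : x ∈ pint K p) : g x ∈ pint K p := by
  obtain ⟨j, hj⟩ := hx
  refine ⟨j, ?_⟩
  have h := hj.map (g.toAlgHom.restrictScalars ℤ)
  have e : (g.toAlgHom.restrictScalars ℤ) ((p : K) ^ j * x) = (p : K) ^ j * g x := by
    show g ((p : K) ^ j * x) = (p : K) ^ j * g x
    rw [map_mul, map_pow, map_natCast]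
  rwa [e] at h

/-- rational elements of `pint` -/
theorem pint_rat {q : ℚ} (h : (algebraMap ℚ K q) ∈ pint K p) :
    ∃ (j : ℕ) (z : ℤ), (p : ℚ) ^ j * q = z := by
  obtain ⟨j, hj⟩ := h
  refine ⟨j, ?_⟩
  have e : (p : K) ^ j * algebraMap ℚ K q = algebraMap ℚ K ((p : ℚ) ^ j * q) := by
    rw [map_mul, map_pow, map_natCast]
  rw [e] at hj
  have h1 : IsIntegral ℤ ((p : ℚ) ^ j * q) :=
    (isIntegral_algebraMap_iff (algebraMap ℚ K).injective).1 hj
  obtain ⟨z, hz⟩ := IsIntegrallyClosed.isIntegral_iff.1 h1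
  exact ⟨z, by rw [← hz]; rfl⟩

theorem int_of_rat {q : ℚ} {j : ℕ} {z : ℤ} (h : (p : ℚ) ^ j * q = z)
    (hq : ‖(q : ℚ_[p])‖ ≤ 1) : ∃ z' : ℤ, q = z' := by
  have h1 : ‖((z : ℤ) : ℚ_[p])‖ ≤ (p : ℝ) ^ (-(j : ℤ)) := by
    have h2 : ((z : ℤ) : ℚ_[p]) = (p : ℚ_[p]) ^ j * (q : ℚ_[p]) := by
      have := congrArg (fun x : ℚ => (x : ℚ_[p])) h
      push_cast at this
      exact this.symm
    rw [h2, norm_mul, norm_pow, Padic.norm_p]
    calc ((p : ℝ)⁻¹) ^ j * ‖(q : ℚ_[p])‖ ≤ ((p : ℝ)⁻¹) ^ j * 1 := by gcongr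
      _ = (p : ℝ) ^ (-(j : ℤ)) := by rw [mul_one, inv_pow, zpow_neg, zpow_natCast]
  rw [Padic.norm_int_le_pow_iff_dvd] at h1
  obtain ⟨z', hz'⟩ := h1
  refine ⟨z', ?_⟩
  have hp0 : ((p : ℚ)) ^ j ≠ 0 := pow_ne_zero _ (by exact_mod_cast hp.out.ne_zero)
  apply mul_left_cancel₀ hp0
  rw [h, hz']
  push_cast
  ring

/-- INTEGRALITY CRITERION -/
theorem int_of_local [Normal ℚ K] (φ : K →+* ℚ_[p]) {x : K} (hx : x ∈ pint K p)
    (h : ∀ g : K ≃ₐ[ℚ] K, ‖φ (g x)‖ ≤ 1) : IsIntegral ℤ x := by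
  obtain ⟨f, hf⟩ : ∃ f, f = minpoly ℚ x := ⟨_, rfl⟩
  have hint : IsIntegral ℚ x := Algebra.IsIntegral.isIntegral x
  have hmon : f.Monic := by rw [hf]; exact minpoly.monic hint
  have hsp : (f.map (algebraMap ℚ K)).Splits := by rw [hf]; exact Normal.splits inferInstance x
  have hprod := hsp.eq_prod_roots_of_monic (hmon.map _)
  have hroot : ∀ r ∈ (f.map (algebraMap ℚ K)).roots, ∃ g : K ≃ₐ[ℚ] K, r = g x := by
    intro r hr
    have h1 : aeval r (minpoly ℚ x) = 0 := by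
      have h2 := (mem_roots'.1 hr).2
      rw [IsRoot.def, eval_map, ← aeval_def, hf] at h2
      exact h2
    have h2 : IsConjRoot ℚ r x :=
      ((isConjRoot_iff_aeval_eq_zero hint).2 h1).symm
    obtain ⟨g, hg⟩ := isConjRoot_iff_exists_algEquiv.1 h2
    exact ⟨g, hg.symm⟩
  have hc1 : ∀ n, ∃ (j : ℕ) (z : ℤ), (p : ℚ) ^ j * f.coeff n = z := by
    intro n
    apply pint_rat (K := K)
    rw [← coeff_map, hprod]
    refine coeff_mem _ _ ?_ n
    intro r hr
    obtain ⟨g, rfl⟩ := hroot r hr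
    exact pint_map g hx
  have hc2 : ∀ n, ‖((f.coeff n : ℚ) : ℚ_[p])‖ ≤ 1 := by
    intro n
    have e1 : ((f.coeff n : ℚ) : ℚ_[p]) = ((f.map (algebraMap ℚ K)).map φ).coeff n := by
      rw [coeff_map, coeff_map, eq_ratCast, map_ratCast]
    rw [e1, hprod, Polynomial.map_multiset_prod, Multiset.map_map]
    have e2 : Multiset.map (Polynomial.map φ ∘ fun a => X - C a)
        (f.map (algebraMap ℚ K)).roots =
        (((f.map (algebraMap ℚ K)).roots.map φ).map fun a => X - C a) := by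
      rw [Multiset.map_map]
      congr 1
      ext1 a
      simp
    rw [e2]
    refine coeff_mem (PadicInt.subring p) _ ?_ n
    intro r hr
    obtain ⟨r', hr', rfl⟩ := Multiset.mem_map.1 hr
    obtain ⟨g, rfl⟩ := hroot r' hr'
    exact h g
  have hlift : f ∈ lifts (algebraMap ℤ ℚ) := by
    rw [lifts_iff_coeff_lifts]
    intro n
    obtain ⟨j, z, hz⟩ := hc1 n
    obtain ⟨z', hz'⟩ := int_of_rat hz (hc2 n)
    exact ⟨z', by rw [hz']; rfl⟩
  obtain ⟨F, hF1, -, hF2⟩ := lifts_and_natDegree_eq_and_monic hlift hmon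
  refine ⟨F, hF2, ?_⟩
  have h3 : aeval x f = 0 := by rw [hf]; exact minpoly.aeval ℚ x
  rw [← hF1, aeval_map_algebraMap] at h3
  exact h3

end Vale.Agent.P027.TD
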