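import Mathlib

set_option linter.all false

/-! The local computation of the norm of products of `(A ^ d - 1) / (A ^ d + 1)` (step 5). -/

namespace Vale.Agent.P027.TD

open Finset

variable {p : ℕ} [hp : Fact p.Prime]

/-- principal units of level `k` -/
def PU (k : ℕ) (u : ℚ_[p]) : Prop := ‖u - 1‖ ≤ (p : ℝ) ^ (-(k : ℤ))

theorem p_gt : (1 : ℝ) < p := by exact_mod_cast hp.out.one_lt

theorem zpow_lt_one {k : ℕ} (hk : 1 ≤ k) : (p : ℝ) ^ (-(k : ℤ)) < 1 := by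
  have h := zpow_lt_zpow_right₀ (p_gt (p := p)) (show -(k : ℤ) < 0 by omega)
  simpa using h

theorem PU.norm {k : ℕ} (hk : 1 ≤ k) {u : ℚ_[p]} (h : PU k u) : ‖u‖ = 1 := by
  have h1 : ‖u - 1‖ < 1 := lt_of_le_of_lt h (zpow_lt_one hk)
  have h2 : u = (u - 1) + 1 := by ring
  rw [h2]
  have h3 : ‖u - 1‖ ≠ ‖(1 : ℚ_[p])‖ := by rw [norm_one]; exact h1.ne
  rw [Padic.add_eq_max_of_ne h3, norm_one, max_eq_right h1.le]

theorem PU.one (k : ℕ) : PU k (1 : ℚ_[p]) := by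
  unfold PU
  rw [sub_self, norm_zero]
  positivity

theorem PU.mul {k : ℕ} (hk : 1 ≤ k) {u w : ℚ_[p]} (hu : PU k u) (hw : PU k w) :
    PU k (u * w) := by
  have h1 := hu.norm hk
  unfold PU at *
  have e : u * w - 1 = u * (w - 1) + (u - 1) := by ring
  rw [e]
  refine (Padic.nonarchimedean _ _).trans (max_le ?_ hu)
  rw [norm_mul, h1, one_mul]
  exact hw

theorem PU.inv {k : ℕ} (hk : 1 ≤ k) {u : ℚ_[p]} (hu : PU k u) : PU k u⁻¹ := by
  have h1 := hu.norm hk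
  have h0 : u ≠ 0 := by rintro rfl; rw [norm_zero] at h1; exact zero_ne_one h1
  unfold PU at *
  have e : u⁻¹ - 1 = -(u - 1) * u⁻¹ := by field_simp; ring
  rw [e, norm_mul, norm_neg, norm_inv, h1, inv_one, mul_one]
  exact hu

theorem PU.pow {k : ℕ} (hk : 1 ≤ k) {u : ℚ_[p]} (hu : PU k u) (n : ℕ) : PU k (u ^ n) := by
  induction n with
  | zero => rw [pow_zero]; exact PU.one k
  | succ n ih => rw [pow_succ]; exact ih.mul hk hu

theorem PU.zpow {k : ℕ} (hk : 1 ≤ k) {u : ℚ_[p]} (hu : PU k u) (n : ℤ) : PU k (u ^ n) := by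
  cases n with
  | ofNat n => rw [Int.ofNat_eq_natCast, zpow_natCast]; exact hu.pow hk n
  | negSucc n => rw [zpow_negSucc]; exact (hu.pow hk (n + 1)).inv hk

theorem PU.prod {ι : Type} {k : ℕ} (hk : 1 ≤ k) {s : Finset ι} {f : ι → ℚ_[p]}
    (h : ∀ i ∈ s, PU k (f i)) : PU k (∏ i ∈ s, f i) := by
  classical
  induction s using Finset.induction_on with
  | empty => simp; exact PU.one k
  | insert a s ha ih =>
    rw [Finset.prod_insert ha]
    exact (h a (Finset.mem_insert_self _ _)).mul hk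
      (ih fun j hj => h j (Finset.mem_insert_of_mem hj))

/-- the normalized quotient -/
noncomputable def ww (b : ℚ_[p]) (d : ℕ) : ℚ_[p] := (1 - b ^ d) / (1 + b ^ d)

theorem one_add_norm {x : ℚ_[p]} (hx : ‖x‖ < 1) : ‖1 + x‖ = 1 := by
  have h3 : ‖(1 : ℚ_[p])‖ ≠ ‖x‖ := by rw [norm_one]; exact hx.ne'
  rw [Padic.add_eq_max_of_ne h3, norm_one, max_eq_left hx.le]

theorem norm_two (h2 : p ≠ 2) : ‖(2 : ℚ_[p])‖ = 1 := by
  have h : ‖((2 : ℕ) : ℚ_[p])‖ = 1 := by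
    rw [Padic.norm_natCast_eq_one_iff]
    exact (Nat.coprime_primes hp.out Nat.prime_two).2 h2
  simpa using h

theorem pow_norm_lt {b : ℚ_[p]} (hb : ‖b‖ < 1) {d : ℕ} (hd : 1 ≤ d) : ‖b ^ d‖ < 1 := by
  rw [norm_pow]
  exact pow_lt_one₀ (norm_nonneg _) hb (by omega)

theorem ww_sub (h2 : p ≠ 2) {b : ℚ_[p]} (hb : ‖b‖ < 1) {d : ℕ} (hd : 1 ≤ d) :
    ‖ww b d - 1‖ = ‖b‖ ^ d := by
  have h1 := pow_norm_lt hb hd
  have h3 := one_add_norm h1
  have h0 : 1 + b ^ d ≠ 0 := by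
    intro h; rw [h, norm_zero] at h3; exact zero_ne_one h3
  have e : ww b d - 1 = -(2 * b ^ d) / (1 + b ^ d) := by
    unfold ww
    field_simp
    ring
  rw [e, norm_div, norm_neg, norm_mul, norm_two h2, h3, one_mul, div_one, norm_pow]

theorem ww_add (h2 : p ≠ 2) {u : ℚ_[p]} (hu : ‖u - 1‖ < 1) : ‖u + 1‖ = 1 := by
  have e : u + 1 = (u - 1) + 2 := by ring
  rw [e, Padic.add_eq_max_of_ne, norm_two h2, max_eq_right hu.le]
  rw [norm_two h2]
  exact hu.ne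

/-- the normalized value -/
theorem exists_b (h2 : p ≠ 2) {a : ℚ_[p]} (ha : a ≠ 0) (ha1 : ‖a‖ ≠ 1) :
    ∃ (b : ℚ_[p]) (θ : ℚ_[p]), (b = a ∨ b = a⁻¹) ∧ ‖b‖ < 1 ∧ θ ≠ 0 ∧
      ∀ d, 1 ≤ d → (a ^ d - 1) / (a ^ d + 1) = θ * ww b d := by
  rcases lt_or_gt_of_ne ha1 with h | h
  · refine ⟨a, -1, Or.inl rfl, h, by norm_num, ?_⟩
    intro d hd
    unfold ww
    rw [neg_one_mul, ← neg_div]
    congr 1 <;> ring
  · refine ⟨a⁻¹, 1, Or.inr rfl, ?_, one_ne_zero, ?_⟩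
    · rw [norm_inv]
      exact inv_lt_one_of_one_lt₀ h
    · intro d hd
      unfold ww
      have h0 : a ^ d ≠ 0 := pow_ne_zero _ ha
      rw [one_mul, inv_pow]
      field_simp

/-- products over a set of indices -/
theorem prod_norm {b : ℚ_[p]} (h2 : p ≠ 2) (hb : ‖b‖ < 1) {s : Finset ℕ} {ε : ℕ → ℤ}
    (hs : ∀ d ∈ s, 1 ≤ d) {k : ℕ} (hk : 1 ≤ k) (hbk : ∀ d ∈ s, ‖b‖ ^ d ≤ (p : ℝ) ^ (-(k : ℤ))) :
    PU k (∏ d ∈ s, ww b d ^ ε d) := by
  refine PU.prod hk fun d hd => PU.zpow hk ?_ _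
  unfold PU
  rw [ww_sub h2 hb (hs d hd)]
  exact hbk d hd

theorem prod_theta {θ : ℚ_[p]} (hθ : θ ≠ 0) {s : Finset ℕ} {ε : ℕ → ℤ} (hsum : ∑ d ∈ s, ε d = 0)
    (w : ℕ → ℚ_[p]) : ∏ d ∈ s, (θ * w d) ^ ε d = ∏ d ∈ s, w d ^ ε d := by
  have e : ∀ s : Finset ℕ, ∏ d ∈ s, θ ^ ε d = θ ^ ∑ d ∈ s, ε d := by
    intro s
    induction s using Finset.induction_on with
    | empty => simp
    | insert a s ha ih => rw [Finset.prod_insert ha, Finset.sum_insert ha, ih, zpow_add₀ hθ]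
  simp only [mul_zpow]
  rw [Finset.prod_mul_distrib, e, hsum, zpow_zero, one_mul]

/-- THE LAW, local form -/
theorem law_local (h2 : p ≠ 2) (a : ℕ → ℚ_[p]) {m V : ℕ} (hm : 0 < m) (hV : 1 ≤ V)
    (ham : ∀ i < m, a (m + i) = (a i)⁻¹)
    (h0 : ‖a 0‖ = (p : ℝ) ^ (-(V : ℤ)) ∨ ‖a 0‖ = (p : ℝ) ^ (V : ℤ))
    (hi : ∀ i, 0 < i → i < m → ‖a i‖ ≤ (p : ℝ) ^ (-((V : ℤ) + 1)) ∨
      (p : ℝ) ^ ((V : ℤ) + 1) ≤ ‖a i‖)
    (ha0 : ∀ i < m, a i ≠ 0) {s : Finset ℕ} {ε : ℕ → ℤ} (hs : ∀ d ∈ s, 1 ≤ d) (h1 : 1 ∈ s)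
    (hsum : ∑ d ∈ s, ε d = 0) (hε : ε 1 = 1 ∨ ε 1 = -1) :
    ¬ ‖∏ i ∈ range (m + m), ∏ d ∈ s, ((a i ^ d - 1) / (a i ^ d + 1)) ^ ε d - 1‖ ≤
      (p : ℝ) ^ (-((V : ℤ) + 1)) := by
  have hp1 : (1 : ℝ) < p := p_gt
  -- normalized values
  have hex : ∀ i, ∃ b : ℚ_[p], i < m → ‖b‖ < 1 ∧ (b = a i ∨ b = (a i)⁻¹) ∧
      ∏ d ∈ s, ((a i ^ d - 1) / (a i ^ d + 1)) ^ ε d = ∏ d ∈ s, ww b d ^ ε d ∧
      ∏ d ∈ s, ((a (m + i) ^ d - 1) / (a (m + i) ^ d + 1)) ^ ε d = ∏ d ∈ s, ww b d ^ ε d := by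
    intro i
    by_cases hil : i < m
    · have hne : ‖a i‖ ≠ 1 := by
        rcases Nat.eq_zero_or_pos i with hz | hz
        · subst hz
          rcases h0 with h | h
          · rw [h]; exact (zpow_lt_one hV).ne
          · rw [h]
            exact (one_lt_zpow₀ hp1 (by omega)).ne'
        · rcases hi i hz hil with h | h
          · have h3 : (p : ℝ) ^ (-((V : ℤ) + 1)) < 1 := by
              have := zpow_lt_one (p := p) (k := V + 1) (by omega)
              push_cast at this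
              exact this
            exact (lt_of_le_of_lt h h3).ne
          · have h3 : (1 : ℝ) < (p : ℝ) ^ ((V : ℤ) + 1) := one_lt_zpow₀ hp1 (by omega)
            exact (lt_of_lt_of_le h3 h).ne'
      obtain ⟨b, θ, hb, hb1, hθ, hbd⟩ := exists_b h2 (ha0 i hil) hne
      refine ⟨b, fun _ => ⟨hb1, hb, ?_, ?_⟩⟩
      · refine Eq.trans ?_ (prod_theta hθ hsum (ww b))
        refine Finset.prod_congr rfl fun d hd => ?_
        rw [hbd d (hs d hd)]
      · have hneg : (-θ) ≠ 0 := neg_ne_zero.2 hθ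
        refine Eq.trans ?_ (prod_theta hneg hsum (ww b))
        refine Finset.prod_congr rfl fun d hd => ?_
        have h3 := hbd d (hs d hd)
        have h4 : ((a (m + i)) ^ d - 1) / ((a (m + i)) ^ d + 1) =
            -(((a i) ^ d - 1) / ((a i) ^ d + 1)) := by
          rw [ham i hil, inv_pow]
          have h5 : (a i) ^ d ≠ 0 := pow_ne_zero _ (ha0 i hil)
          field_simp
          ring
        rw [h4, h3, neg_mul]
    · exact ⟨0, fun h => absurd h hil⟩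
  choose b hb using hex
  -- the norm is a square
  obtain ⟨M, hM⟩ : ∃ M, M = ∏ i ∈ range m, ∏ d ∈ s, ww (b i) d ^ ε d := ⟨_, rfl⟩
  have hN : ∏ i ∈ range (m + m), ∏ d ∈ s, ((a i ^ d - 1) / (a i ^ d + 1)) ^ ε d = M * M := by
    rw [Finset.prod_range_add, hM]
    congr 1
    · exact Finset.prod_congr rfl fun i hi => (hb i (Finset.mem_range.1 hi)).2.2.1
    · exact Finset.prod_congr rfl fun i hi => (hb i (Finset.mem_range.1 hi)).2.2.2
  have hb0 : ‖b 0‖ = (p : ℝ) ^ (-(V : ℤ)) := by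
    obtain ⟨h3, h4, -, -⟩ := hb 0 hm
    rcases h0 with h | h
    · rcases h4 with h5 | h5
      · rw [h5, h]
      · exfalso
        rw [h5, norm_inv, h, zpow_neg, inv_inv] at h3
        exact absurd h3 (not_lt.2 (one_le_zpow₀ hp1.le (by omega)))
    · rcases h4 with h5 | h5
      · exfalso
        rw [h5, h] at h3
        exact absurd h3 (not_lt.2 (one_le_zpow₀ hp1.le (by omega)))
      · rw [h5, norm_inv, h, zpow_neg]
  have hbi : ∀ i, 0 < i → i < m → ‖b i‖ ≤ (p : ℝ) ^ (-(((V + 1 : ℕ) : ℤ))) := by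
    intro i hz hil
    obtain ⟨h3, h4, -, -⟩ := hb i hil
    push_cast
    rcases hi i hz hil with h | h
    · rcases h4 with h5 | h5
      · rw [h5]; exact h
      · exfalso
        have h6 : ‖a i‖ < 1 := by
          refine lt_of_le_of_lt h ?_
          have := zpow_lt_one (p := p) (k := V + 1) (by omega)
          push_cast at this
          exact this
        rw [h5, norm_inv] at h3
        have h7 : 0 < ‖a i‖ := norm_pos_iff.2 (ha0 i hil)
        exact absurd h3 (not_lt.2 (one_le_inv_iff₀.2 ⟨h7, h6.le⟩))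
    · rcases h4 with h5 | h5
      · exfalso
        rw [h5] at h3
        have h6 : (1 : ℝ) < (p : ℝ) ^ ((V : ℤ) + 1) := one_lt_zpow₀ hp1 (by omega)
        linarith
      · rw [h5, norm_inv, zpow_neg]
        exact inv_anti₀ (by positivity) h
  have hk : 1 ≤ V + 1 := by omega
  -- the main term
  obtain ⟨w, hw⟩ : ∃ w, w = ww (b 0) 1 := ⟨_, rfl⟩
  have hwn : ‖w - 1‖ = (p : ℝ) ^ (-(V : ℤ)) := by
    rw [hw, ww_sub h2 (hb 0 hm).1 (le_refl 1), pow_one, hb0]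
  obtain ⟨R, hR⟩ : ∃ R, R = (∏ d ∈ s.erase 1, ww (b 0) d ^ ε d) *
    ∏ i ∈ (range m).erase 0, ∏ d ∈ s, ww (b i) d ^ ε d := ⟨_, rfl⟩
  have hMR : M = w ^ ε 1 * R := by
    rw [hM, hR, ← Finset.mul_prod_erase (range m) _ (Finset.mem_range.2 hm),
      ← Finset.mul_prod_erase s _ h1, hw, mul_assoc]
  have hRU : PU (V + 1) R := by
    rw [hR]
    refine PU.mul hk ?_ ?_
    · refine prod_norm h2 (hb 0 hm).1 (fun d hd => hs d (Finset.mem_of_mem_erase hd)) hk ?_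
      intro d hd
      have hd1 : d ≠ 1 := Finset.ne_of_mem_erase hd
      have hd2 : 2 ≤ d := by have := hs d (Finset.mem_of_mem_erase hd); omega
      rw [hb0, ← zpow_natCast, ← zpow_mul]
      refine zpow_le_zpow_right₀ hp1.le ?_
      push_cast
      nlinarith
    · refine PU.prod hk fun i hi' => ?_
      have hz : 0 < i := Nat.pos_of_ne_zero (Finset.ne_of_mem_erase hi')
      have hil : i < m := Finset.mem_range.1 (Finset.mem_of_mem_erase hi')
      refine prod_norm h2 (hb i hil).1 hs hk ?_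
      intro d hd
      refine le_trans ?_ (hbi i hz hil)
      exact pow_le_of_le_one (norm_nonneg _) (hb i hil).1.le (by have := hs d hd; omega)
  rw [hN]
  intro hcon
  have hlt1 : (p : ℝ) ^ (-(V : ℤ)) < 1 := zpow_lt_one hV
  have hwU : PU V w := hwn.le
  -- `M` itself is close to `1`
  have hwz : PU V (w ^ ε 1) := hwU.zpow hV _
  have hRV : PU V R := by
    refine le_trans hRU ?_
    refine zpow_le_zpow_right₀ hp1.le ?_
    push_cast
    omega
  have hMV : PU V M := by rw [hMR]; exact hwz.mul hV hRV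
  have hM1 : ‖M + 1‖ = 1 := ww_add h2 (lt_of_le_of_lt hMV hlt1)
  have hMe : PU (V + 1) M := by
    unfold PU
    have e : M * M - 1 = (M - 1) * (M + 1) := by ring
    rw [e, norm_mul, hM1, mul_one] at hcon
    push_cast
    exact hcon
  have hwe : PU (V + 1) (w ^ ε 1) := by
    have hR0 : R ≠ 0 := by
      intro h
      have := hRU.norm hk
      rw [h, norm_zero] at this
      exact zero_ne_one this
    have e : w ^ ε 1 = M * R⁻¹ := by rw [hMR]; field_simp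
    rw [e]
    exact hMe.mul hk (hRU.inv hk)
  have hwe' : PU (V + 1) w := by
    rcases hε with h | h
    · rw [h, zpow_one] at hwe; exact hwe
    · rw [h, zpow_neg, zpow_one] at hwe
      have := hwe.inv hk
      rwa [inv_inv] at this
  unfold PU at hwe'
  rw [hwn] at hwe'
  have : (p : ℝ) ^ (-(((V + 1 : ℕ) : ℤ))) < (p : ℝ) ^ (-(V : ℤ)) :=
    zpow_lt_zpow_right₀ hp1 (by push_cast; omega)
  linarith

/-- the values are units -/
theorem law_unit (h2 : p ≠ 2) {a : ℚ_[p]} (ha : a ≠ 0) (ha1 : ‖a‖ ≠ 1) {s : Finset ℕ}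
    {ε : ℕ → ℤ} (hs : ∀ d ∈ s, 1 ≤ d) (hsum : ∑ d ∈ s, ε d = 0) :
    ‖∏ d ∈ s, ((a ^ d - 1) / (a ^ d + 1)) ^ ε d‖ = 1 := by
  obtain ⟨b, θ, hb, hb1, hθ, hbd⟩ := exists_b h2 ha ha1
  have e : ∏ d ∈ s, ((a ^ d - 1) / (a ^ d + 1)) ^ ε d = ∏ d ∈ s, ww b d ^ ε d := by
    refine Eq.trans ?_ (prod_theta hθ hsum (ww b))
    exact Finset.prod_congr rfl fun d hd => by rw [hbd d (hs d hd)]
  rw [e, norm_prod]
  refine Finset.prod_eq_one fun d hd => ?_
  have h1 := ww_sub h2 hb1 (hs d hd)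
  have h3 : ‖ww b d - 1‖ < 1 := by
    rw [h1]; exact pow_lt_one₀ (norm_nonneg _) hb1 (by have := hs d hd; omega)
  have h4 : ‖ww b d‖ = 1 := by
    have e2 : ww b d = 1 + (ww b d - 1) := by ring
    rw [e2]; exact one_add_norm h3
  rw [norm_zpow, h4, one_zpow]

end Vale.Agent.P027.TD
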