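import Vale.Agent.P027.R2.H18.PowProd
import Vale.Agent.P027.R2.H18.Law

set_option linter.all false

/-! The law (step 5) in the field: the hypothesis `law` of `LawData` from the norm statement. -/

namespace Vale.Agent.P027.TD

open Finset

variable {K : Type} [Field K] [CharZero K]

theorem Places.v_zpow (P : Places K) (i : P.I) {x : K} (hx : x ≠ 0) (n : ℤ) :
    P.v i (x ^ n) = n * P.v i x := by
  cases n with
  | ofNat n => rw [Int.ofNat_eq_natCast, zpow_natCast, P.v_pow i hx]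
  | negSucc n =>
    rw [zpow_negSucc, P.v_inv i (pow_ne_zero _ hx), P.v_pow i hx]
    push_cast
    rw [Int.negSucc_eq]
    ring

theorem Places.v_prod (P : Places K) (i : P.I) (s : Finset ℕ) {g : ℕ → K}
    (h : ∀ d ∈ s, g d ≠ 0) : P.v i (∏ d ∈ s, g d) = ∑ d ∈ s, P.v i (g d) := by
  induction s using Finset.induction_on with
  | empty => simp [P.v_one i]
  | insert a s ha ih =>
    rw [Finset.prod_insert ha, Finset.sum_insert ha, P.v_mul i _ _ (h a (Finset.mem_insert_self _ _))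
      (Finset.prod_ne_zero_iff.2 fun d hd => h d (Finset.mem_insert_of_mem hd)),
      ih fun d hd => h d (Finset.mem_insert_of_mem hd)]

/-- THE LAW from the norm statement (S2); `g i` is the `i`-th embedding into the `p`-adic numbers -/
theorem law_of_norm {p : ℕ} [hp : Fact p.Prime] (h2 : p ≠ 2) (P : Places K) (A : K) (f : P.I → ℕ)
    (g : ℕ → (K →+* ℚ_[p])) {m V : ℕ} (hm : 0 < m) (hV : 1 ≤ V) (hA0 : A ≠ 0)
    (hA1 : ∀ n, 1 ≤ n → A ^ n ≠ 1)
    (hgm : ∀ i < m, g (m + i) A = (g i A)⁻¹)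
    (h0 : ‖g 0 A‖ = (p : ℝ) ^ (-(V : ℤ)) ∨ ‖g 0 A‖ = (p : ℝ) ^ (V : ℤ))
    (hi : ∀ i, 0 < i → i < m → ‖g i A‖ ≤ (p : ℝ) ^ (-((V : ℤ) + 1)) ∨
      (p : ℝ) ^ ((V : ℤ) + 1) ≤ ‖g i A‖)
    (S2 : ∀ x : K, x ≠ 0 → (∀ i < m + m, ‖g i x‖ = 1) → (∀ j, (f j : ℤ) ∣ P.v j x) →
      ‖∏ i ∈ range (m + m), g i x - 1‖ ≤ (p : ℝ) ^ (-((V : ℤ) + 1)))
    (s : Finset ℕ) (ε : ℕ → ℤ) (hs : ∀ d ∈ s, 1 ≤ d) (h1 : 1 ∈ s)
    (hsum : ∑ d ∈ s, ε d = 0) (hε : ε 1 = 1 ∨ ε 1 = -1) :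
    ∃ j, ¬ ((f j : ℤ) ∣ ∑ d ∈ s, ε d * P.v j (tau A d)) := by
  by_contra hcon
  push Not at hcon
  have htau : ∀ d, 1 ≤ d → tau A d ≠ 0 := by
    intro d hd
    refine div_ne_zero (sub_ne_zero.2 (hA1 d hd)) fun h => ?_
    apply hA1 (2 * d) (by omega)
    rw [two_mul, pow_add, eq_neg_of_add_eq_zero_left h]; ring
  obtain ⟨x, hx⟩ : ∃ x, x = ∏ d ∈ s, tau A d ^ ε d := ⟨_, rfl⟩
  have hx0 : x ≠ 0 := by
    rw [hx]
    exact Finset.prod_ne_zero_iff.2 fun d hd => zpow_ne_zero _ (htau d (hs d hd))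
  have hgx : ∀ i, g i x = ∏ d ∈ s, ((g i A ^ d - 1) / (g i A ^ d + 1)) ^ ε d := by
    intro i
    rw [hx, map_prod]
    refine Finset.prod_congr rfl fun d _ => ?_
    rw [map_zpow₀]
    unfold tau
    rw [map_div₀, map_sub, map_add, map_one, map_pow]
  have hvx : ∀ j, P.v j x = ∑ d ∈ s, ε d * P.v j (tau A d) := by
    intro j
    rw [hx, P.v_prod j s fun d hd => zpow_ne_zero _ (htau d (hs d hd))]
    exact Finset.sum_congr rfl fun d hd => P.v_zpow j (htau d (hs d hd)) _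
  have hg0 : ∀ i, g i A ≠ 0 := fun i => (map_ne_zero (g i)).2 hA0
  have hp1 : (1 : ℝ) < p := p_gt
  have hne : ∀ i < m, ‖g i A‖ ≠ 1 := by
    intro i hil
    rcases Nat.eq_zero_or_pos i with hz | hz
    · subst hz
      rcases h0 with h | h
      · rw [h]; exact (zpow_lt_one hV).ne
      · rw [h]; exact (one_lt_zpow₀ hp1 (by omega)).ne'
    · rcases hi i hz hil with h | h
      · have h3 : (p : ℝ) ^ (-((V : ℤ) + 1)) < 1 := by
          have := zpow_lt_one (p := p) (k := V + 1) (by omega)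
          push_cast at this
          exact this
        exact (lt_of_le_of_lt h h3).ne
      · have h3 : (1 : ℝ) < (p : ℝ) ^ ((V : ℤ) + 1) := one_lt_zpow₀ hp1 (by omega)
        exact (lt_of_lt_of_le h3 h).ne'
  have hne' : ∀ i < m + m, ‖g i A‖ ≠ 1 := by
    intro i hi'
    by_cases hil : i < m
    · exact hne i hil
    · obtain ⟨k, rfl⟩ : ∃ k, i = m + k := ⟨i - m, by omega⟩
      rw [hgm k (by omega), norm_inv]
      intro h
      exact hne k (by omega) (inv_eq_one.1 h)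
  have hunit : ∀ i < m + m, ‖g i x‖ = 1 := by
    intro i hi'
    rw [hgx]
    exact law_unit h2 (hg0 i) (hne' i hi') hs hsum
  have hS := S2 x hx0 hunit (fun j => by rw [hvx]; exact hcon j)
  refine law_local h2 (fun i => g i A) hm hV hgm h0 hi (fun i _ => hg0 i) hs h1 hsum hε ?_
  rw [Finset.prod_congr rfl fun i _ => hgx i] at hS
  exact hS

end Vale.Agent.P027.TD
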