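import Mathlib

set_option linter.all false

/-! Numbers `(A ^ n - 1) / (A ^ n + 1)` in a field with a family of discrete valuations: an abstract
form of the recognition of powers of a prime and of products (steps 7 and 8 of the notes). -/

namespace Vale.Agent.P027.TD

/-- a family of discrete valuations with finite residue characteristic -/
structure Places (K : Type) [Field K] where
  I : Type
  v : I → K → ℤ
  r : I → ℕ
  v_mul : ∀ i x y, x ≠ 0 → y ≠ 0 → v i (x * y) = v i x + v i y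
  v_add : ∀ i x y, x ≠ 0 → y ≠ 0 → x + y ≠ 0 → min (v i x) (v i y) ≤ v i (x + y)
  r_prime : ∀ i, (r i).Prime
  v_nat_nonneg : ∀ i (m : ℕ), m ≠ 0 → 0 ≤ v i (m : K)
  v_nat : ∀ i (m : ℕ), m ≠ 0 → (0 < v i (m : K) ↔ r i ∣ m)

namespace Places

variable {K : Type} [Field K] [CharZero K] (P : Places K) (i : P.I)

theorem v_one : P.v i 1 = 0 := by
  have := P.v_mul i 1 1 one_ne_zero one_ne_zero
  rw [mul_one] at this
  omega

theorem v_neg_one : P.v i (-1) = 0 := by
  have h : (-1 : K) ≠ 0 := neg_ne_zero.2 one_ne_zero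
  have := P.v_mul i (-1) (-1) h h
  rw [neg_mul_neg, mul_one, v_one] at this
  omega

theorem v_neg {x : K} (hx : x ≠ 0) : P.v i (-x) = P.v i x := by
  have h : (-1 : K) ≠ 0 := neg_ne_zero.2 one_ne_zero
  have := P.v_mul i (-1) x h hx
  rw [neg_one_mul, v_neg_one, zero_add] at this
  exact this

theorem v_inv {x : K} (hx : x ≠ 0) : P.v i x⁻¹ = -P.v i x := by
  have := P.v_mul i x x⁻¹ hx (inv_ne_zero hx)
  rw [mul_inv_cancel₀ hx, v_one] at this
  omega

theorem v_div {x y : K} (hx : x ≠ 0) (hy : y ≠ 0) : P.v i (x / y) = P.v i x - P.v i y := by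
  rw [div_eq_mul_inv, P.v_mul i _ _ hx (inv_ne_zero hy), P.v_inv i hy]
  ring

theorem v_pow {x : K} (hx : x ≠ 0) (n : ℕ) : P.v i (x ^ n) = n * P.v i x := by
  induction n with
  | zero => rw [pow_zero, v_one]; simp
  | succ n ih =>
    rw [pow_succ, P.v_mul i _ _ (pow_ne_zero n hx) hx, ih]
    push_cast
    ring

/-- integral elements -/
def NN (x : K) : Prop := x = 0 ∨ 0 ≤ P.v i x
/-- elements of the maximal ideal -/
def Pos (x : K) : Prop := x = 0 ∨ 0 < P.v i x

variable {P i}

theorem Pos.nn {x : K} (h : P.Pos i x) : P.NN i x := h.imp id le_of_lt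

theorem NN.add {x y : K} (hx : P.NN i x) (hy : P.NN i y) : P.NN i (x + y) := by
  rcases eq_or_ne x 0 with h | h
  · rw [h, zero_add]; exact hy
  rcases eq_or_ne y 0 with h' | h'
  · rw [h', add_zero]; exact hx
  rcases eq_or_ne (x + y) 0 with h'' | h''
  · exact Or.inl h''
  have h1 := hx.resolve_left h
  have h2 := hy.resolve_left h'
  exact Or.inr (le_trans (le_min h1 h2) (P.v_add i x y h h' h''))

theorem Pos.add {x y : K} (hx : P.Pos i x) (hy : P.Pos i y) : P.Pos i (x + y) := by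
  rcases eq_or_ne x 0 with h | h
  · rw [h, zero_add]; exact hy
  rcases eq_or_ne y 0 with h' | h'
  · rw [h', add_zero]; exact hx
  rcases eq_or_ne (x + y) 0 with h'' | h''
  · exact Or.inl h''
  have h1 := hx.resolve_left h
  have h2 := hy.resolve_left h'
  exact Or.inr (lt_of_lt_of_le (lt_min h1 h2) (P.v_add i x y h h' h''))

theorem NN.mul {x y : K} (hx : P.NN i x) (hy : P.NN i y) : P.NN i (x * y) := by
  rcases eq_or_ne x 0 with h | h
  · left; rw [h, zero_mul]
  rcases eq_or_ne y 0 with h' | h'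
  · left; rw [h', mul_zero]
  right
  rw [P.v_mul i x y h h']
  exact add_nonneg (hx.resolve_left h) (hy.resolve_left h')

theorem Pos.mul_nn {x y : K} (hx : P.Pos i x) (hy : P.NN i y) : P.Pos i (x * y) := by
  rcases eq_or_ne x 0 with h | h
  · left; rw [h, zero_mul]
  rcases eq_or_ne y 0 with h' | h'
  · left; rw [h', mul_zero]
  right
  rw [P.v_mul i x y h h']
  exact add_pos_of_pos_of_nonneg (hx.resolve_left h) (hy.resolve_left h')

theorem NN.neg {x : K} (hx : P.NN i x) : P.NN i (-x) := by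
  rcases eq_or_ne x 0 with h | h
  · left; rw [h, neg_zero]
  · right; rw [P.v_neg i h]; exact hx.resolve_left h

theorem Pos.neg {x : K} (hx : P.Pos i x) : P.Pos i (-x) := by
  rcases eq_or_ne x 0 with h | h
  · left; rw [h, neg_zero]
  · right; rw [P.v_neg i h]; exact hx.resolve_left h

theorem Pos.sub {x y : K} (hx : P.Pos i x) (hy : P.Pos i y) : P.Pos i (x - y) := by
  rw [sub_eq_add_neg]; exact hx.add hy.neg

theorem nn_one : P.NN i 1 := Or.inr (P.v_one i).ge

theorem nn_zero : P.NN i 0 := Or.inl rfl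
theorem pos_zero : P.Pos i 0 := Or.inl rfl

theorem nn_nat (m : ℕ) : P.NN i (m : K) := by
  rcases Nat.eq_zero_or_pos m with h | h
  · left; rw [h]; simp
  · right; exact P.v_nat_nonneg i m (by omega)

theorem NN.pow {x : K} (hx : P.NN i x) (n : ℕ) : P.NN i (x ^ n) := by
  induction n with
  | zero => rw [pow_zero]; exact nn_one
  | succ n ih => rw [pow_succ]; exact ih.mul hx

theorem NN.sum {ι : Type} {s : Finset ι} {f : ι → K} (h : ∀ j ∈ s, P.NN i (f j)) :
    P.NN i (∑ j ∈ s, f j) := by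
  classical
  induction s using Finset.induction_on with
  | empty => simp; exact nn_zero
  | insert a s ha ih =>
    rw [Finset.sum_insert ha]
    exact (h a (Finset.mem_insert_self _ _)).add
      (ih fun j hj => h j (Finset.mem_insert_of_mem hj))

theorem Pos.sum {ι : Type} {s : Finset ι} {f : ι → K} (h : ∀ j ∈ s, P.Pos i (f j)) :
    P.Pos i (∑ j ∈ s, f j) := by
  classical
  induction s using Finset.induction_on with
  | empty => simp; exact pos_zero
  | insert a s ha ih =>
    rw [Finset.sum_insert ha]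
    exact (h a (Finset.mem_insert_self _ _)).add
      (ih fun j hj => h j (Finset.mem_insert_of_mem hj))

theorem not_pos_one : ¬ P.Pos i 1 := by
  rintro (h | h)
  · exact one_ne_zero h
  · rw [P.v_one i] at h; exact lt_irrefl _ h

/-- a unit -/
theorem v_eq_zero {x : K} (h : P.NN i x) (h' : ¬ P.Pos i x) : P.v i x = 0 ∧ x ≠ 0 := by
  have h0 : x ≠ 0 := fun h0 => h' (Or.inl h0)
  refine ⟨le_antisymm ?_ (h.resolve_left h0), h0⟩
  by_contra hcon
  exact h' (Or.inr (by omega))

theorem not_pos {x : K} (h0 : x ≠ 0) (h : P.v i x = 0) : ¬ P.Pos i x := by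
  rintro (h1 | h1)
  · exact h0 h1
  · omega

theorem pos_nat {m : ℕ} (hm : m ≠ 0) : P.Pos i (m : K) ↔ P.r i ∣ m := by
  rw [← P.v_nat i m hm]
  constructor
  · rintro (h | h)
    · exact absurd (Nat.cast_eq_zero.1 h) hm
    · exact h
  · exact Or.inr

/-- perturbation of a natural number prime to the residue characteristic -/
theorem v_of_sub_nat {x : K} {m : ℕ} (hm : ¬ P.r i ∣ m) (h : P.Pos i (x - m)) :
    P.v i x = 0 ∧ x ≠ 0 := by
  have hm0 : m ≠ 0 := by rintro rfl; exact hm (dvd_zero _)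
  have e : x = (x - m) + m := by ring
  refine v_eq_zero ?_ ?_
  · rw [e]; exact h.nn.add (nn_nat m)
  · intro h1
    have h2 : P.Pos i ((m : ℕ) : K) := by
      have e2 : ((m : ℕ) : K) = x - (x - m) := by ring
      rw [e2]; exact h1.sub h
    exact hm ((pos_nat hm0).1 h2)

theorem pos_pow_sub_one {B : K} (hB : P.Pos i (B - 1)) (j : ℕ) : P.Pos i (B ^ j - 1) := by
  have hB' : P.NN i B := by
    have e : B = (B - 1) + 1 := by ring
    rw [e]; exact hB.nn.add nn_one
  rw [← mul_geom_sum B j]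
  exact hB.mul_nn (NN.sum fun k _ => hB'.pow k)

theorem pos_geom {B : K} (hB : P.Pos i (B - 1)) (m : ℕ) :
    P.Pos i (∑ j ∈ Finset.range m, B ^ j - m) := by
  have e : ∑ j ∈ Finset.range m, B ^ j - m = ∑ j ∈ Finset.range m, (B ^ j - 1) := by
    rw [Finset.sum_sub_distrib]; simp
  rw [e]
  exact Pos.sum fun j _ => pos_pow_sub_one hB j

/-- lifting the exponent, prime-to-the-characteristic case -/
theorem v_pow_sub_one {B : K} (hB : P.Pos i (B - 1)) (hB1 : B ≠ 1) {m : ℕ} (hm : ¬ P.r i ∣ m) :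
    P.v i (B ^ m - 1) = P.v i (B - 1) := by
  obtain ⟨h1, h2⟩ := v_of_sub_nat hm (pos_geom hB m)
  rw [← mul_geom_sum B m, P.v_mul i _ _ (sub_ne_zero.2 hB1) h2, h1, add_zero]

theorem v_pow_add_one {B : K} (hB : P.Pos i (B + 1)) (hB1 : B ≠ -1) {m : ℕ} (hm : ¬ P.r i ∣ m)
    (hodd : Odd m) : P.v i (B ^ m + 1) = P.v i (B + 1) := by
  have hB' : P.Pos i (-B - 1) := by
    have e : -B - 1 = -(B + 1) := by ring
    rw [e]; exact hB.neg
  have h := v_pow_sub_one hB' (by rintro h; exact hB1 (by rw [← h, neg_neg])) hm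
  rw [hodd.neg_pow] at h
  have h0 : B + 1 ≠ 0 := fun h0 => hB1 (eq_neg_of_add_eq_zero_left h0)
  have e1 : -B ^ m - 1 = -(B ^ m + 1) := by ring
  have e2 : -B - 1 = -(B + 1) := by ring
  rw [e2, P.v_neg i h0, e1] at h
  rcases eq_or_ne (B ^ m + 1) 0 with h3 | h3
  · exfalso
    have h4 := pos_geom hB' m
    obtain ⟨h5, h6⟩ := v_of_sub_nat hm h4
    have h7 := mul_geom_sum (-B) m
    rw [hodd.neg_pow, e1, h3, neg_zero] at h7
    rcases mul_eq_zero.1 h7 with h8 | h8
    · exact h0 (by rw [e2] at h8; exact neg_eq_zero.1 h8)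
    · exact h6 h8
  · rw [P.v_neg i h3] at h
    exact h

end Places

end Vale.Agent.P027.TD
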