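import Mathlib

set_option linter.all false

/-! Prime factors of `p ^ u - 1`. -/

namespace Vale.Agent.P027.TD

open Finset

theorem new_prime_aux {q s : ℕ} (hs : s.Prime) (hq : 3 ≤ q) (h4 : s = 2 → q % 4 = 1)
    (H : ∀ l : ℕ, l.Prime → l ∣ q ^ s - 1 → l ∣ q - 1) : False := by
  haveI : Fact s.Prime := ⟨hs⟩
  obtain ⟨Φ, hΦ⟩ : ∃ Φ, Φ = ∑ j ∈ range s, q ^ j := ⟨_, rfl⟩
  have hmul : Φ * (q - 1) = q ^ s - 1 := by
    rw [hΦ]
    exact geom_sum_mul_of_one_le (by omega) s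
  have hmod : ∀ l : ℕ, l ∣ q - 1 → Φ ≡ s [MOD l] := by
    intro l hl
    have h1 : q ≡ 1 [MOD l] := ((Nat.modEq_iff_dvd' (by omega)).2 hl).symm
    rw [hΦ]
    have h2 : ∑ j ∈ range s, q ^ j ≡ ∑ j ∈ range s, 1 [MOD l] := by
      refine Nat.ModEq.sum fun j _ => ?_
      simpa using h1.pow j
    simpa using h2
  have hprime : ∀ l : ℕ, l.Prime → l ∣ Φ → l = s := by
    intro l hl h
    have h1 : l ∣ q - 1 := H l hl (h.trans ⟨q - 1, hmul.symm⟩)
    have h2 : l ∣ s := (Nat.modEq_zero_iff_dvd.1 ((hmod l h1).symm.trans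
      (Nat.modEq_zero_iff_dvd.2 h)))
    exact (Nat.prime_dvd_prime_iff_eq hl hs).1 h2
  have hΦs : s < Φ := by
    rw [hΦ]
    obtain ⟨s', rfl⟩ : ∃ s', s = s' + 1 := ⟨s - 1, by have := hs.pos; omega⟩
    have hs1 : 1 ≤ s' := by have := hs.two_le; omega
    rw [Finset.sum_range_succ]
    have h1 : ∑ j ∈ range s', 1 ≤ ∑ j ∈ range s', q ^ j :=
      Finset.sum_le_sum fun j _ => Nat.one_le_pow _ _ (by omega)
    have h2 : q ^ 1 ≤ q ^ s' := Nat.pow_le_pow_right (by omega) hs1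
    simp at h1 h2
    omega
  have hΦ0 : Φ ≠ 0 := by omega
  have hsΦ : s ∣ Φ := by
    obtain ⟨l, hl, hl2⟩ := Nat.exists_prime_and_dvd (n := Φ) (by have := hs.one_lt; omega)
    rw [← hprime l hl hl2]; exact hl2
  have hsq : s ∣ q - 1 := H s hs (hsΦ.trans ⟨q - 1, hmul.symm⟩)
  have hnot : ¬ s ^ 2 ∣ Φ := by
    rcases hs.eq_two_or_odd' with h2 | h2
    · have h3 := h4 h2
      subst h2
      have h5 : Φ = q + 1 := by rw [hΦ]; simp [Finset.sum_range_succ]; ring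
      rw [h5]
      omega
    · have h3 : padicValNat s (q ^ s - 1 ^ s) = padicValNat s (q - 1) + padicValNat s s := by
        refine padicValNat.pow_sub_pow h2 (by omega) hsq ?_ hs.pos.ne'
        intro h
        have : s ∣ 1 := (Nat.dvd_sub h hsq).trans (by rw [show q - (q - 1) = 1 by omega])
        exact hs.one_lt.ne' (Nat.dvd_one.1 this)
      rw [one_pow, ← hmul, padicValNat.mul hΦ0 (by omega), padicValNat_self] at h3
      intro h
      have h5 := (padicValNat_dvd_iff_le hΦ0).1 h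
      omega
  obtain ⟨m, hm⟩ := hsΦ
  have hm1 : m ≠ 1 := by rintro rfl; omega
  obtain ⟨l, hl, hl2⟩ := Nat.exists_prime_and_dvd hm1
  have h6 : l = s := hprime l hl (hl2.trans ⟨s, by rw [hm]; ring⟩)
  subst h6
  apply hnot
  rw [hm, pow_two]
  exact mul_dvd_mul_left _ hl2

/-- a prime factor of `p ^ u - 1` not dividing `p ^ d - 1` -/
theorem new_prime {p d u : ℕ} (hp : 3 ≤ p) (hodd : Odd p) (hd : 1 ≤ d) (h2 : 2 ∣ d)
    (hdu : d ∣ u) (hne : d < u) : ∃ l : ℕ, l.Prime ∧ l ∣ p ^ u - 1 ∧ ¬ l ∣ p ^ d - 1 := by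
  by_contra hcon
  push Not at hcon
  obtain ⟨m, rfl⟩ := hdu
  have hm : m ≠ 1 := by rintro rfl; omega
  obtain ⟨s, hs, hsm⟩ := Nat.exists_prime_and_dvd hm
  have hq : 3 ≤ p ^ d := le_trans hp (Nat.le_self_pow (by omega) p)
  refine new_prime_aux (q := p ^ d) hs hq ?_ ?_
  · intro _
    obtain ⟨d', rfl⟩ := h2
    have h1 : p ^ 2 % 4 = 1 := by
      obtain ⟨k, rfl⟩ := hodd
      have : (2 * k + 1) ^ 2 = 4 * (k * k + k) + 1 := by ring
      omega
    rw [pow_mul, Nat.pow_mod, h1]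
    simp
  · intro l hl h
    refine hcon l hl (h.trans ?_)
    rw [← pow_mul]
    exact Nat.pow_sub_one_dvd_pow_sub_one p (Nat.mul_dvd_mul_left d hsm)

/-- distinct even exponents are separated by a prime -/
theorem sep_prime {p u v : ℕ} (hp : 3 ≤ p) (hodd : Odd p) (hu : 1 ≤ u) (hv : 1 ≤ v) (hu2 : 2 ∣ u)
    (hv2 : 2 ∣ v) (hne : u ≠ v) :
    ∃ l : ℕ, l.Prime ∧ ((l ∣ p ^ u - 1 ∧ ¬ l ∣ p ^ v - 1) ∨ (l ∣ p ^ v - 1 ∧ ¬ l ∣ p ^ u - 1)) := by
  have hd : 2 ∣ u.gcd v := Nat.dvd_gcd hu2 hv2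
  have hd1 : 1 ≤ u.gcd v := Nat.gcd_pos_of_pos_left v hu
  have hle1 : u.gcd v ≤ u := Nat.le_of_dvd hu (Nat.gcd_dvd_left u v)
  have hle2 : u.gcd v ≤ v := Nat.le_of_dvd hv (Nat.gcd_dvd_right u v)
  have hg := Nat.pow_sub_one_gcd_pow_sub_one p u v
  by_cases h : u.gcd v = u
  · have h' : u.gcd v < v := by omega
    obtain ⟨l, hl, h1, h2⟩ := new_prime hp hodd hd1 hd (Nat.gcd_dvd_right u v) h'
    exact ⟨l, hl, Or.inr ⟨h1, fun h3 => h2 (by rw [← hg]; exact Nat.dvd_gcd h3 h1)⟩⟩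
  · obtain ⟨l, hl, h1, h2⟩ := new_prime hp hodd hd1 hd (Nat.gcd_dvd_left u v) (by omega)
    exact ⟨l, hl, Or.inl ⟨h1, fun h3 => h2 (by rw [← hg]; exact Nat.dvd_gcd h1 h3)⟩⟩

/-- many prime factors -/
theorem many_primes {p j : ℕ} (hp : 3 ≤ p) (hodd : Odd p) (hj : 1 ≤ j) :
    j ≤ (p ^ 2 ^ j - 1).primeFactors.card := by
  induction j with
  | zero => omega
  | succ j ih =>
    rcases Nat.eq_zero_or_pos j with h0 | h0
    · subst h0
      have h1 : 1 < p ^ 2 ^ (0 + 1) - 1 := by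
        have : p ^ 1 ≤ p ^ 2 ^ (0 + 1) := Nat.pow_le_pow_right (by omega) (by norm_num)
        rw [pow_one] at this
        norm_num at this ⊢
        have h5 : 3 ^ 2 ≤ p ^ 2 := Nat.pow_le_pow_left hp 2
        omega
      exact Finset.card_pos.2 (Nat.nonempty_primeFactors.2 h1)
    · have hne : p ^ 2 ^ (j + 1) - 1 ≠ 0 := by
        have : 1 < p ^ 2 ^ (j + 1) := Nat.one_lt_pow (by positivity) (by omega)
        omega
      have hne' : p ^ 2 ^ j - 1 ≠ 0 := by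
        have : 1 < p ^ 2 ^ j := Nat.one_lt_pow (by positivity) (by omega)
        omega
      obtain ⟨l, hl, h1, h2⟩ := new_prime hp hodd (d := 2 ^ j) (u := 2 ^ (j + 1))
        Nat.one_le_two_pow (dvd_pow_self 2 (by omega)) ⟨2, pow_succ 2 j⟩
        (Nat.pow_lt_pow_right (by norm_num) (by omega))
      have h3 : (p ^ 2 ^ j - 1).primeFactors ⊂ (p ^ 2 ^ (j + 1) - 1).primeFactors := by
        refine (Finset.ssubset_iff_of_subset ?_).2 ⟨l, ?_, ?_⟩
        · exact Nat.primeFactors_mono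
            (Nat.pow_sub_one_dvd_pow_sub_one p (pow_dvd_pow 2 (Nat.le_succ j))) hne
        · exact Nat.mem_primeFactors.2 ⟨hl, h1, hne⟩
        · exact fun h => h2 (Nat.dvd_of_mem_primeFactors h)
      have h4 := Finset.card_lt_card h3
      have := ih h0
      omega

/-- many prime factors of `p ^ u - 1` when `2 ^ j ∣ u` -/
theorem many_primes' {p j u : ℕ} (hp : 3 ≤ p) (hodd : Odd p) (hj : 1 ≤ j) (hu : 1 ≤ u)
    (h : 2 ^ j ∣ u) : j ≤ (p ^ u - 1).primeFactors.card := by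
  refine (many_primes hp hodd hj).trans (Finset.card_le_card (Nat.primeFactors_mono
    (Nat.pow_sub_one_dvd_pow_sub_one p h) ?_))
  have : 1 < p ^ u := Nat.one_lt_pow (by omega) (by omega)
  omega

/-- the elementary inequality of the counting argument -/
theorem count_ineq {c w : ℕ} (h : c + 11 ≤ w) : 4 * c * w < 2 ^ (w - 2) := by
  have h1 : ∀ m : ℕ, 4 * (m + 11) * (m + 11) < 2 ^ (m + 9) := by
    intro m
    induction m with
    | zero => norm_num
    | succ m ih =>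
      rw [show m + 1 + 9 = (m + 9) + 1 by ring, pow_succ]
      nlinarith
  obtain ⟨m, rfl⟩ : ∃ m, w = m + 11 := ⟨w - 11, by omega⟩
  have h2 := h1 m
  have h3 : 4 * c * (m + 11) ≤ 4 * (m + 11) * (m + 11) := by
    gcongr
    omega
  rw [show m + 11 - 2 = m + 9 by omega]
  omega

/-- exponents from congruences -/
theorem dvd_exp_iff {p a b : ℕ} (hp : 2 ≤ p) : p ^ a - 1 ∣ p ^ b - 1 ↔ a ∣ b := by
  constructor
  · intro h
    have h1 := Nat.pow_sub_one_gcd_pow_sub_one p a b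
    rw [Nat.gcd_eq_left h] at h1
    have h2 : 1 ≤ p ^ a := Nat.one_le_pow _ _ (by omega)
    have h3 : 1 ≤ p ^ (a.gcd b) := Nat.one_le_pow _ _ (by omega)
    have h4 : p ^ a = p ^ (a.gcd b) := by omega
    have h5 := Nat.pow_right_injective hp h4
    exact h5 ▸ Nat.gcd_dvd_right a b
  · exact Nat.pow_sub_one_dvd_pow_sub_one p

end Vale.Agent.P027.TD
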