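import Vale.Agent.P027.R2.H18.Sep
import Vale.Agent.P027.R2.H18.Rad

set_option linter.all false

/-! Recognition of powers of `p` and of products (steps 7 and 8 of the notes), abstract form. -/

namespace Vale.Agent.P027.TD

open Finset ArithmeticFunction
open scoped ArithmeticFunction.Moebius

/-- the arithmetic input of the recognition of powers and products -/
structure LawData (K : Type) [Field K] [CharZero K] where
  P : Places K
  A : K
  p : ℕ
  c : ℕ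
  f : P.I → ℕ
  hp : p.Prime
  hp2 : p ≠ 2
  hA : A ≠ 0
  hA1 : ∀ n, 1 ≤ n → A ^ n ≠ 1
  hv : ∀ i, P.v i A = 0
  hm : ∀ i, ∃ m, 1 ≤ m ∧ ¬ P.r i ∣ m ∧ P.Pos i (A ^ m - 1)
  hr : ∀ i, P.r i ≠ p
  hc : ∀ (q : ℕ) (s : Finset P.I), (∀ i ∈ s, P.r i = q) → s.card ≤ c
  law : ∀ (s : Finset ℕ) (ε : ℕ → ℤ), (∀ d ∈ s, 1 ≤ d) → 1 ∈ s → ∑ d ∈ s, ε d = 0 →
    (ε 1 = 1 ∨ ε 1 = -1) → ∃ i, ¬ ((f i : ℤ) ∣ ∑ d ∈ s, ε d * P.v i (tau A d))

namespace LawData

open Places

variable {K : Type} [Field K] [CharZero K] (D : LawData K)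

theorem hAm (n : ℕ) (hn : 1 ≤ n) : D.A ^ n ≠ -1 := by
  intro h
  apply D.hA1 (2 * n) (by omega)
  rw [two_mul, pow_add, h]; ring

theorem sub_ne (n : ℕ) (hn : 1 ≤ n) : D.A ^ n - 1 ≠ 0 := sub_ne_zero.2 (D.hA1 n hn)

theorem add_ne (n : ℕ) (hn : 1 ≤ n) : D.A ^ n + 1 ≠ 0 := fun h =>
  D.hAm n hn (eq_neg_of_add_eq_zero_left h)

theorem tau_ne (n : ℕ) (hn : 1 ≤ n) : tau D.A n ≠ 0 := div_ne_zero (D.sub_ne n hn) (D.add_ne n hn)

theorem hv' (i : D.P.I) : D.A ≠ 0 ∧ D.P.v i D.A = 0 := ⟨D.hA, D.hv i⟩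

theorem v_tau (i : D.P.I) {n : ℕ} (hn : 1 ≤ n) :
    D.P.v i (tau D.A n) = D.P.v i (D.A ^ n - 1) - D.P.v i (D.A ^ n + 1) :=
  D.P.v_div i (D.sub_ne n hn) (D.add_ne n hn)

theorem odd_p : Odd D.p := D.hp.odd_of_ne_two D.hp2

theorem three_le_p : 3 ≤ D.p := by
  have h1 := D.hp.two_le
  have h2 := D.hp2
  omega

/-- multiplication by `p` at places where `p` does not divide the order -/
theorem pfree_eq {i : D.P.I} (h : ¬ D.p ∣ ty D.P D.A i) {N : ℕ} (hN : 1 ≤ N) :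
    D.P.v i (tau D.A (D.p * N)) = D.P.v i (tau D.A N) := by
  have hv := D.hv' i
  have hm := D.hm i
  have hpN : 1 ≤ D.p * N := Nat.mul_pos D.hp.pos hN
  have hrp : ¬ D.P.r i ∣ D.p := fun h1 =>
    D.hr i ((Nat.prime_dvd_prime_iff_eq (D.P.r_prime i) D.hp).1 h1)
  have hcop : Nat.Coprime (ty D.P D.A i) D.p :=
    (Nat.coprime_comm.1 ((Nat.Prime.coprime_iff_not_dvd D.hp).2 h))
  have e : D.A ^ (D.p * N) = (D.A ^ N) ^ D.p := by rw [mul_comm, pow_mul]
  rw [D.v_tau i hpN, D.v_tau i hN]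
  congr 1
  · by_cases h1 : D.P.Pos i (D.A ^ N - 1)
    · rw [e, v_pow_sub_one h1 (D.hA1 N hN) hrp]
    · rw [(v_eq_zero (nn_sub hv hm _) h1).1]
      refine (v_eq_zero (nn_sub hv hm _) fun h2 => h1 ?_).1
      rw [pos_iff hv hm] at h2 ⊢
      exact hcop.dvd_of_dvd_mul_left h2
  · by_cases h1 : D.P.Pos i (D.A ^ N + 1)
    · rw [e, v_pow_add_one h1 (D.hAm N hN) hrp D.odd_p]
    · rw [(v_eq_zero (nn_add' hv hm _) h1).1]
      refine (v_eq_zero (nn_add' hv hm _) fun h2 => h1 ?_).1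
      have h3 := (pos_iff hv hm _).1 (pos_two_mul hv hm _ h2)
      rw [show 2 * (D.p * N) = D.p * (2 * N) by ring] at h3
      have h4 := hcop.dvd_of_dvd_mul_left h3
      by_cases h5 : D.P.Pos i (D.A ^ N - 1)
      · have h6 : D.P.Pos i (D.A ^ (D.p * N) - 1) := by
          rw [pos_iff hv hm] at h5 ⊢
          exact h5.trans (dvd_mul_left _ _)
        exact (pos_add_of_two hv hm (pos_two hv hm _ h6 h2) N).2 h5
      · exact pos_half hv hm ((pos_iff hv hm _).2 h4) h5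

theorem pfree_pow {i : D.P.I} (h : ¬ D.p ∣ ty D.P D.A i) {N : ℕ} (hN : 1 ≤ N) (a : ℕ) :
    D.P.v i (tau D.A (D.p ^ a * N)) = D.P.v i (tau D.A N) := by
  induction a with
  | zero => rw [pow_zero, one_mul]
  | succ a ih =>
    rw [pow_succ', mul_assoc, D.pfree_eq h (Nat.mul_pos (pow_pos D.hp.pos a) hN), ih]

theorem pfree_zero {i : D.P.I} (h : D.p ∣ ty D.P D.A i) {N : ℕ} (hN : 1 ≤ N) (hpN : ¬ D.p ∣ N) :
    D.P.v i (tau D.A N) = 0 := by
  have hv := D.hv' i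
  have hm := D.hm i
  rw [D.v_tau i hN]
  have h1 : ¬ D.P.Pos i (D.A ^ N - 1) := by
    rw [pos_iff hv hm]
    exact fun h1 => hpN (h.trans h1)
  have h2 : ¬ D.P.Pos i (D.A ^ N + 1) := by
    intro h2
    have h3 := h.trans ((pos_iff hv hm _).1 (pos_two_mul hv hm _ h2))
    rcases (Nat.Prime.dvd_mul D.hp).1 h3 with h4 | h4
    · exact D.hp2 ((Nat.prime_dvd_prime_iff_eq D.hp Nat.prime_two).1 h4)
    · exact hpN h4
  rw [(v_eq_zero (nn_sub hv hm _) h1).1, (v_eq_zero (nn_add' hv hm _) h2).1, sub_zero]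

/-- the `p`-free trick -/
theorem pfree {a b N M : ℕ} (hN : 1 ≤ N) (hM : 1 ≤ M) (hpN : ¬ D.p ∣ N) (hpM : ¬ D.p ∣ M)
    (h : ∀ i, (D.f i : ℤ) ∣ D.P.v i (tau D.A (D.p ^ a * N)) - D.P.v i (tau D.A (D.p ^ b * M))) :
    ∀ i, (D.f i : ℤ) ∣ D.P.v i (tau D.A N) - D.P.v i (tau D.A M) := by
  intro i
  by_cases h1 : D.p ∣ ty D.P D.A i
  · rw [D.pfree_zero h1 hN hpN, D.pfree_zero h1 hM hpM, sub_zero]
    exact dvd_zero _
  · have h2 := h i
    rw [D.pfree_pow h1 hN, D.pfree_pow h1 hM] at h2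
    exact h2

/-- RECOGNITION OF POWERS OF `p` -/
theorem pow_sound {e y : ℕ} (hy : 1 ≤ y)
    (h : ∀ i, (D.f i : ℤ) ∣ D.P.v i (tau D.A y) - D.P.v i (tau D.A (D.p ^ e))) :
    ∃ w, y = D.p ^ w := by
  obtain ⟨a, N, hpN, hyN⟩ := Nat.exists_eq_pow_mul_and_not_dvd (n := y) (by omega) D.p
    D.hp.ne_one
  have hN : 1 ≤ N := by
    rcases Nat.eq_zero_or_pos N with h0 | h0
    · exfalso; rw [h0, mul_zero] at hyN; omega
    · exact h0
  refine ⟨a, ?_⟩
  by_contra hcon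
  have hN1 : N ≠ 1 := by
    rintro rfl
    rw [mul_one] at hyN
    exact hcon hyN
  have hp1 : ¬ D.p ∣ 1 := fun h1 => D.hp.one_lt.ne' (Nat.dvd_one.1 h1)
  have h1 := D.pfree (a := a) (b := e) hN (le_refl 1) hpN hp1 (by
    intro i; rw [mul_one, ← hyN]; exact h i)
  obtain ⟨i, hi⟩ := D.law {1, N} (fun d => if d = N then 1 else -1) (by
      intro d hd
      rw [Finset.mem_insert, Finset.mem_singleton] at hd
      rcases hd with rfl | rfl
      · exact le_refl 1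
      · exact hN) (Finset.mem_insert_self _ _) (by
      rw [Finset.sum_pair hN1.symm, if_neg hN1.symm, if_pos rfl]; norm_num)
      (by rw [if_neg hN1.symm]; exact Or.inr rfl)
  apply hi
  rw [Finset.sum_pair hN1.symm, if_neg hN1.symm, if_pos rfl]
  have e : -1 * D.P.v i (tau D.A 1) + 1 * D.P.v i (tau D.A N) =
      D.P.v i (tau D.A N) - D.P.v i (tau D.A 1) := by ring
  rw [e]
  exact h1 i

/-- the order of the product over the divisors of `k` -/
theorem pi_val (i : D.P.I) {k : ℕ} (hk : Squarefree k) (hodd : Odd k) :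
    ∑ d ∈ k.divisors, μ (k / d) * D.P.v i (tau D.A d) =
      (if k = ty D.P D.A i then D.P.v i (D.A ^ ty D.P D.A i - 1) else 0) +
      (if k = D.P.r i * ty D.P D.A i then D.P.v i (D.A ^ (D.P.r i * ty D.P D.A i) - 1) -
        D.P.v i (D.A ^ ty D.P D.A i - 1) else 0) -
      ((if k = hty D.P D.A i then D.P.v i (D.A ^ hty D.P D.A i + 1) else 0) +
      (if k = D.P.r i * hty D.P D.A i then D.P.v i (D.A ^ (D.P.r i * hty D.P D.A i) + 1) -
        D.P.v i (D.A ^ hty D.P D.A i + 1) else 0)) := by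
  have hv := D.hv' i
  have hm := D.hm i
  have hk0 : k ≠ 0 := hk.ne_zero
  rw [← mob_sum hk0, ← mob_sum hk0, ← mob_sum hk0, ← mob_sum hk0, ← Finset.sum_add_distrib,
    ← Finset.sum_add_distrib, ← Finset.sum_sub_distrib]
  refine Finset.sum_congr rfl fun d hd => ?_
  have hdk : d ∣ k := Nat.dvd_of_mem_divisors hd
  have hd0 : d ≠ 0 := fun h => hk0 (zero_dvd_iff.1 (h ▸ hdk))
  rw [D.v_tau i (Nat.pos_of_ne_zero hd0), val_sub hv hm D.hA1 hd0 (hk.squarefree_of_dvd hdk),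
    val_add hv hm D.hA1 (hodd.of_dvd_nat hdk) (hk.squarefree_of_dvd hdk)]
  ring

/-- where the test for `k` fails -/
theorem pi_fail {k : ℕ} (hk : Squarefree k) (hk1 : k ≠ 1) :
    ∃ i, ¬ ((D.f i : ℤ) ∣ ∑ d ∈ k.divisors, μ (k / d) * D.P.v i (tau D.A d)) := by
  have hk0 : k ≠ 0 := hk.ne_zero
  refine D.law k.divisors (fun d => μ (k / d)) (fun d hd => Nat.pos_of_mem_divisors hd)
    (Nat.one_mem_divisors.2 hk0) ?_ ?_
  · have h := mob_sum (k := k) (c := 1) hk0 1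
    rw [if_neg hk1] at h
    rw [← h]
    refine Finset.sum_congr rfl fun d _ => ?_
    rw [if_pos (one_dvd d), mul_one]
  · show μ (k / 1) = 1 ∨ μ (k / 1) = -1
    rw [Nat.div_one]
    exact (moebius_ne_zero_iff_eq_or.1 (moebius_ne_zero_iff_squarefree.2 hk))

/-- the comparison at a place whose residue characteristic does not divide `N` -/
theorem key {N M l k : ℕ} (hN : N ≠ 0) (hM : 1 ≤ M) (h2 : 2 ∣ N) (hl2 : l.Coprime 2)
    (hlM : ¬ l ∣ M) (hk : Squarefree k) (hodd : Odd k) (hlk : l ∣ k) (hkN : k ∣ N) (i : D.P.I)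
    (hr : ¬ D.P.r i ∣ N)
    (h0 : ∑ d ∈ k.divisors, μ (k / d) * D.P.v i (tau D.A d) ≠ 0) :
    D.P.v i (tau D.A N) - D.P.v i (tau D.A M) =
        ∑ d ∈ k.divisors, μ (k / d) * D.P.v i (tau D.A d) ∨
      D.P.v i (tau D.A N) - D.P.v i (tau D.A M) =
        -∑ d ∈ k.divisors, μ (k / d) * D.P.v i (tau D.A d) := by
  have hv := D.hv' i
  have hm := D.hm i
  have hN1 : 1 ≤ N := Nat.pos_of_ne_zero hN
  have hr2 : D.P.r i ≠ 2 := fun h => hr (h ▸ h2)
  have hk0 : k ≠ 0 := hk.ne_zero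
  have hk1 : 1 ≤ k := Nat.pos_of_ne_zero hk0
  rw [D.pi_val i hk hodd] at h0 ⊢
  rw [if_neg (fun h => hr ((Dvd.intro _ h.symm).trans hkN) :
      ¬ k = D.P.r i * ty D.P D.A i),
    if_neg (fun h => hr ((Dvd.intro _ h.symm).trans hkN) :
      ¬ k = D.P.r i * hty D.P D.A i), add_zero, add_zero] at h0 ⊢
  -- both `N` parts
  have hNadd : D.P.Pos i (D.A ^ N - 1) → D.P.v i (D.A ^ N + 1) = 0 := by
    intro h
    exact (v_eq_zero (nn_add' hv hm _) fun h3 => hr2 (pos_two hv hm _ h h3)).1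
  have hMz : ∀ x, l ∣ x → (ty D.P D.A i = x ∨ ty D.P D.A i = 2 * x) →
      D.P.v i (tau D.A M) = 0 := by
    intro x hx hty'
    have hlt : l ∣ ty D.P D.A i := by
      rcases hty' with h | h
      · rw [h]; exact hx
      · rw [h]; exact hx.mul_left 2
    rw [D.v_tau i hM]
    have h3 : ¬ D.P.Pos i (D.A ^ M - 1) := by
      rw [pos_iff hv hm]
      exact fun h => hlM (hlt.trans h)
    have h4 : ¬ D.P.Pos i (D.A ^ M + 1) := by
      intro h
      have h5 := hlt.trans ((pos_iff hv hm _).1 (pos_two_mul hv hm _ h))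
      exact hlM (hl2.dvd_of_dvd_mul_left h5)
    rw [(v_eq_zero (nn_sub hv hm _) h3).1, (v_eq_zero (nn_add' hv hm _) h4).1, sub_zero]
  by_cases ht : 2 ∣ ty D.P D.A i
  · have hkt : k ≠ ty D.P D.A i := by
      intro h
      rw [← h] at ht
      exact (Nat.not_even_iff_odd.2 hodd) (even_iff_two_dvd.2 ht)
    rw [if_neg hkt, zero_sub] at h0 ⊢
    have hkh : k = hty D.P D.A i := by
      by_contra hcon
      rw [if_neg hcon] at h0
      exact h0 rfl
    rw [if_pos hkh]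
    have ht2 : ty D.P D.A i = 2 * k := by
      rw [hkh]
      unfold hty
      rw [if_neg hr2, if_pos ht]
      omega
    right
    rw [hMz k hlk (Or.inr ht2), sub_zero, neg_neg, ← hkh]
    have h2k : 2 * k ∣ N := by
      refine Nat.Coprime.mul_dvd_of_dvd_of_dvd ?_ h2 hkN
      exact (Nat.coprime_two_left.2 hodd)
    obtain ⟨m, hm'⟩ := h2k
    have hrm : ¬ D.P.r i ∣ m := fun h => hr (h.trans ⟨2 * k, by rw [hm']; ring⟩)
    have hpos : D.P.Pos i (D.A ^ (2 * k) - 1) := by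
      rw [pos_iff hv hm, ht2]
    have hposN : D.P.Pos i (D.A ^ N - 1) := by
      rw [pos_iff hv hm, ht2]; exact ⟨m, hm'⟩
    rw [D.v_tau i hN1, hNadd hposN, sub_zero, hm', pow_mul,
      v_pow_sub_one hpos (D.hA1 _ (by omega)) hrm]
    have e : D.A ^ (2 * k) - 1 = (D.A ^ k - 1) * (D.A ^ k + 1) := by
      rw [two_mul, pow_add]; ring
    have h5 : D.P.v i (D.A ^ k - 1) = 0 := by
      refine (v_eq_zero (nn_sub hv hm _) fun h => ?_).1
      rw [pos_iff hv hm, ht2] at h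
      have := Nat.le_of_dvd hk1 h
      omega
    rw [e, D.P.v_mul i _ _ (D.sub_ne k hk1) (D.add_ne k hk1), h5, zero_add]
  · have hh : hty D.P D.A i = 0 := by
      unfold hty
      rw [if_neg hr2, if_neg ht]
    rw [if_neg (fun h => hk0 (h.trans hh) : ¬ k = hty D.P D.A i), sub_zero] at h0 ⊢
    have hkt : k = ty D.P D.A i := by
      by_contra hcon
      rw [if_neg hcon] at h0
      exact h0 rfl
    rw [if_pos hkt]
    left
    rw [hMz k hlk (Or.inl hkt.symm), sub_zero, ← hkt]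
    obtain ⟨m, hm'⟩ := hkN
    have hrm : ¬ D.P.r i ∣ m := fun h => hr (h.trans ⟨k, by rw [hm']; ring⟩)
    have hpos : D.P.Pos i (D.A ^ k - 1) := by
      rw [pos_iff hv hm, ← hkt]
    have hposN : D.P.Pos i (D.A ^ N - 1) := by
      rw [pos_iff hv hm, ← hkt]; exact ⟨m, hm'⟩
    rw [D.v_tau i hN1, hNadd hposN, sub_zero, hm', pow_mul,
      v_pow_sub_one hpos (D.hA1 _ hk1) hrm]

/-- the four indices served by a place -/
theorem four {i : D.P.I} {k : ℕ} (hk : Squarefree k) (hodd : Odd k)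
    (h0 : ∑ d ∈ k.divisors, μ (k / d) * D.P.v i (tau D.A d) ≠ 0) :
    k ∈ ({ty D.P D.A i, D.P.r i * ty D.P D.A i, hty D.P D.A i,
      D.P.r i * hty D.P D.A i} : Finset ℕ) := by
  rw [D.pi_val i hk hodd] at h0
  by_contra hcon
  simp only [Finset.mem_insert, Finset.mem_singleton, not_or] at hcon
  obtain ⟨h1, h2, h3, h4⟩ := hcon
  rw [if_neg h1, if_neg h2, if_neg h3, if_neg h4] at h0
  exact h0 (by ring)

/-- the counting argument -/
theorem sep_aux {N M l : ℕ} (hN : N ≠ 0) (hM : 1 ≤ M) (h2 : 2 ∣ N) (hl : l.Prime) (hl2 : l ≠ 2)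
    (hlN : l ∣ N) (hlM : ¬ l ∣ M)
    (hcount : 4 * D.c * N.primeFactors.card < 2 ^ (N.primeFactors.card - 2))
    (h : ∀ i, (D.f i : ℤ) ∣ D.P.v i (tau D.A N) - D.P.v i (tau D.A M)) : False := by
  classical
  obtain ⟨Q, hQ⟩ : ∃ Q, Q = (N.primeFactors.erase 2).erase l := ⟨_, rfl⟩
  have hQprime : ∀ x ∈ Q, x.Prime ∧ x ∣ N ∧ x ≠ 2 ∧ x ≠ l := by
    intro x hx
    rw [hQ, Finset.mem_erase, Finset.mem_erase] at hx
    exact ⟨Nat.prime_of_mem_primeFactors hx.2.2, Nat.dvd_of_mem_primeFactors hx.2.2, hx.2.1, hx.1⟩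
  have hQcard : Q.card = N.primeFactors.card - 2 := by
    rw [hQ, Finset.card_erase_of_mem, Finset.card_erase_of_mem]
    · omega
    · exact Nat.mem_primeFactors.2 ⟨Nat.prime_two, h2, hN⟩
    · exact Finset.mem_erase.2 ⟨hl2, Nat.mem_primeFactors.2 ⟨hl, hlN, hN⟩⟩
  obtain ⟨kk, hkk⟩ : ∃ kk : Finset ℕ → ℕ, ∀ S, kk S = ∏ x ∈ insert l S, x := ⟨_, fun _ => rfl⟩
  have hins : ∀ S ∈ Q.powerset, ∀ x ∈ insert l S, x.Prime ∧ x ∣ N ∧ x ≠ 2 := by
    intro S hS x hx
    rcases Finset.mem_insert.1 hx with rfl | hx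
    · exact ⟨hl, hlN, hl2⟩
    · obtain ⟨h3, h4, h5, -⟩ := hQprime x (Finset.mem_powerset.1 hS hx)
      exact ⟨h3, h4, h5⟩
  have hsqf : ∀ S ∈ Q.powerset, Squarefree (kk S) := by
    intro S hS
    rw [hkk]
    refine Finset.squarefree_prod_of_pairwise_isCoprime ?_ ?_
    · intro x hx y hy hxy
      have hx' := hins S hS x hx
      have hy' := hins S hS y hy
      exact Nat.coprime_iff_isRelPrime.1 ((Nat.coprime_primes hx'.1 hy'.1).2 hxy)
    · intro x hx
      exact (hins S hS x hx).1.squarefree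
  have hdvd : ∀ S ∈ Q.powerset, kk S ∣ N := by
    intro S hS
    rw [hkk]
    refine (Finset.prod_dvd_prod_of_subset _ _ _ ?_).trans (Nat.prod_primeFactors_dvd N)
    intro x hx
    have hx' := hins S hS x hx
    exact Nat.mem_primeFactors.2 ⟨hx'.1, hx'.2.1, hN⟩
  have hlk : ∀ S, l ∣ kk S := by
    intro S
    rw [hkk]
    exact Finset.dvd_prod_of_mem _ (Finset.mem_insert_self l S)
  have hoddk : ∀ S ∈ Q.powerset, Odd (kk S) := by
    intro S hS
    rw [hkk]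
    by_contra hcon
    rw [Nat.not_odd_iff_even, even_iff_two_dvd] at hcon
    obtain ⟨x, hx, hx2⟩ := (Prime.dvd_finset_prod_iff Nat.prime_two.prime _).1 hcon
    have hx' := hins S hS x hx
    exact hx'.2.2 ((Nat.prime_dvd_prime_iff_eq Nat.prime_two hx'.1).1 hx2).symm
  have hne1 : ∀ S, kk S ≠ 1 := by
    intro S h1
    have h3 := hlk S
    rw [h1] at h3
    exact hl.one_lt.ne' (Nat.dvd_one.1 h3)
  have hinj : Set.InjOn kk (Q.powerset : Set (Finset ℕ)) := by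
    intro S hS T hT hST
    rw [Finset.mem_coe] at hS hT
    rw [hkk, hkk] at hST
    have h3 := Nat.primeFactors_prod (s := insert l S) fun x hx => (hins S hS x hx).1
    have h4 := Nat.primeFactors_prod (s := insert l T) fun x hx => (hins T hT x hx).1
    have h5 : insert l S = insert l T := by rw [← h3, hST, h4]
    have hlS : l ∉ S := fun h6 => (hQprime l (Finset.mem_powerset.1 hS h6)).2.2.2 rfl
    have hlT : l ∉ T := fun h6 => (hQprime l (Finset.mem_powerset.1 hT h6)).2.2.2 rfl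
    rw [← Finset.erase_insert hlS, h5, Finset.erase_insert hlT]
  have hex : ∀ S : Finset ℕ, ∃ i : D.P.I, S ∈ Q.powerset →
      ¬ ((D.f i : ℤ) ∣ ∑ d ∈ (kk S).divisors, μ (kk S / d) * D.P.v i (tau D.A d)) := by
    intro S
    by_cases hS : S ∈ Q.powerset
    · obtain ⟨i, hi⟩ := D.pi_fail (hsqf S hS) (hne1 S)
      exact ⟨i, fun _ => hi⟩
    · obtain ⟨i, -⟩ := D.pi_fail (k := 2) Nat.prime_two.squarefree (by norm_num)
      exact ⟨i, fun h3 => absurd h3 hS⟩
  choose ii hii using hex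
  have hne0 : ∀ S ∈ Q.powerset,
      ∑ d ∈ (kk S).divisors, μ (kk S / d) * D.P.v (ii S) (tau D.A d) ≠ 0 := by
    intro S hS h3
    apply hii S hS
    rw [h3]
    exact dvd_zero _
  have hrN : ∀ S ∈ Q.powerset, D.P.r (ii S) ∣ N := by
    intro S hS
    by_contra hcon
    apply hii S hS
    rcases D.key hN hM h2 ((Nat.coprime_primes hl Nat.prime_two).2 hl2) hlM (hsqf S hS)
      (hoddk S hS) (hlk S) (hdvd S hS) (ii S) hcon (hne0 S hS) with h3 | h3
    · rw [← h3]; exact h _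
    · rw [← dvd_neg, ← h3]; exact h _
  -- counting
  have hA : Q.powerset.card ≤ 4 * (Q.powerset.image ii).card := by
    refine Finset.card_le_mul_card_image _ 4 ?_
    intro i hi
    have h3 : ((Q.powerset.filter fun S => ii S = i).image kk) ⊆
        ({ty D.P D.A i, D.P.r i * ty D.P D.A i, hty D.P D.A i,
          D.P.r i * hty D.P D.A i} : Finset ℕ) := by
      intro k hk
      obtain ⟨S, hS, rfl⟩ := Finset.mem_image.1 hk
      rw [Finset.mem_filter] at hS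
      obtain ⟨hS1, hS2⟩ := hS
      subst hS2
      exact D.four (hsqf S hS1) (hoddk S hS1) (hne0 S hS1)
    have h4 : ((Q.powerset.filter fun S => ii S = i).image kk).card =
        (Q.powerset.filter fun S => ii S = i).card := by
      refine Finset.card_image_of_injOn ?_
      intro S hS T hT hST
      rw [Finset.mem_coe, Finset.mem_filter] at hS hT
      exact hinj (Finset.mem_coe.2 hS.1) (Finset.mem_coe.2 hT.1) hST
    rw [← h4]
    refine (Finset.card_le_card h3).trans ?_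
    exact Finset.card_le_four
  have hB : (Q.powerset.image ii).card ≤ D.c * N.primeFactors.card := by
    refine Finset.card_le_mul_card_image_of_maps_to (f := D.P.r) ?_ D.c ?_
    · intro i hi
      obtain ⟨S, hS, rfl⟩ := Finset.mem_image.1 hi
      exact Nat.mem_primeFactors.2 ⟨D.P.r_prime _, hrN S hS, hN⟩
    · intro q _
      refine D.hc q _ ?_
      intro i hi
      exact (Finset.mem_filter.1 hi).2
  rw [Finset.card_powerset, hQcard] at hA
  have h5 : 4 * (Q.powerset.image ii).card ≤ 4 * (D.c * N.primeFactors.card) :=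
    Nat.mul_le_mul_left 4 hB
  have h6 : 4 * (D.c * N.primeFactors.card) = 4 * D.c * N.primeFactors.card := by ring
  omega

/-- RECOGNITION OF PRODUCTS -/
theorem prod_sound {a b u v : ℕ} (hu : 2 ^ (D.c + 11) ∣ u) (hv : 2 ^ (D.c + 11) ∣ v)
    (hu0 : 1 ≤ u) (hv0 : 1 ≤ v)
    (h : ∀ i, (D.f i : ℤ) ∣ D.P.v i (tau D.A (D.p ^ a * (D.p ^ u - 1))) -
      D.P.v i (tau D.A (D.p ^ b * (D.p ^ v - 1)))) : u = v := by
  have hp3 := D.three_le_p
  have hodd := D.odd_p
  have hone : ∀ u : ℕ, 1 ≤ u → 1 < D.p ^ u := fun u hu => Nat.one_lt_pow (by omega) (by omega)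
  have hnd : ∀ u : ℕ, 1 ≤ u → ¬ D.p ∣ D.p ^ u - 1 := by
    intro u hu h3
    have h4 : D.p ∣ D.p ^ u := dvd_pow_self _ (by omega)
    have h5 : D.p ∣ 1 := by
      have h6 := Nat.dvd_sub h4 h3
      have h7 := hone u hu
      rwa [show D.p ^ u - (D.p ^ u - 1) = 1 by omega] at h6
    exact D.hp.one_lt.ne' (Nat.dvd_one.1 h5)
  have heven : ∀ u : ℕ, 2 ∣ D.p ^ u - 1 := by
    intro u
    have h3 : Odd (D.p ^ u) := hodd.pow
    obtain ⟨k, hk⟩ := h3
    exact ⟨k, by omega⟩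
  have h2 : ∀ u : ℕ, 2 ^ (D.c + 11) ∣ u → 2 ∣ u := fun u hu =>
    (dvd_pow_self 2 (by omega)).trans hu
  have hcount : ∀ u : ℕ, 2 ^ (D.c + 11) ∣ u → 1 ≤ u →
      4 * D.c * (D.p ^ u - 1).primeFactors.card < 2 ^ ((D.p ^ u - 1).primeFactors.card - 2) := by
    intro u hu hu1
    exact count_ineq (many_primes' hp3 hodd (by omega) hu1 hu)
  have h' := D.pfree (by have := hone u hu0; omega) (by have := hone v hv0; omega) (hnd u hu0)
    (hnd v hv0) h
  by_contra hne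
  obtain ⟨l, hl, hlr⟩ := sep_prime hp3 hodd hu0 hv0 (h2 u hu) (h2 v hv) hne
  have hl2 : l ≠ 2 := by
    rintro rfl
    rcases hlr with h3 | h3
    · exact h3.2 (heven v)
    · exact h3.2 (heven u)
  have hu1 := hone u hu0
  have hv1 := hone v hv0
  rcases hlr with h3 | h3
  · exact D.sep_aux (by omega) (by omega) (heven u) hl hl2 h3.1 h3.2 (hcount u hu hu0) h'
  · refine D.sep_aux (by omega) (by omega) (heven v) hl hl2 h3.1 h3.2 (hcount v hv hv0) ?_
    intro i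
    have := (h' i).neg_right
    rwa [neg_sub] at this

end LawData

end Vale.Agent.P027.TD
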