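import Vale.Agent.P027.R2.H18.Places

set_option linter.all false

/-! Orders at the places, products over divisors and the counting argument. -/

namespace Vale.Agent.P027.TD

open Finset ArithmeticFunction
open scoped ArithmeticFunction.Moebius ArithmeticFunction.zeta

/-- the quotient which has no linear part -/
noncomputable def tau {K : Type} [Field K] (A : K) (n : ℕ) : K := (A ^ n - 1) / (A ^ n + 1)

namespace Places

variable {K : Type} [Field K] [CharZero K] {P : Places K} {i : P.I}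

/-- order of `A` at a place -/
noncomputable def ty (P : Places K) (A : K) (i : P.I) : ℕ := sInf {m | 1 ≤ m ∧ P.Pos i (A ^ m - 1)}

section
variable {A : K} (hv : A ≠ 0 ∧ P.v i A = 0) (hm : ∃ m, 1 ≤ m ∧ ¬ P.r i ∣ m ∧ P.Pos i (A ^ m - 1))
include hv hm

theorem ty_spec : 1 ≤ ty P A i ∧ P.Pos i (A ^ ty P A i - 1) := by
  obtain ⟨m, h1, -, h3⟩ := hm
  exact Nat.sInf_mem (s := {m | 1 ≤ m ∧ P.Pos i (A ^ m - 1)}) ⟨m, h1, h3⟩

theorem nnA : P.NN i A := Or.inr hv.2.ge

theorem pos_iff (n : ℕ) : P.Pos i (A ^ n - 1) ↔ ty P A i ∣ n := by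
  obtain ⟨h1, h2⟩ := ty_spec hv hm
  have hq : ∀ q, P.Pos i (A ^ (ty P A i * q) - 1) := by
    intro q
    rw [pow_mul]
    exact pos_pow_sub_one h2 q
  constructor
  · intro h
    by_contra hcon
    obtain ⟨s, hs⟩ : ∃ s, s = n % ty P A i := ⟨_, rfl⟩
    have hs0 : 1 ≤ s := by
      rw [hs]
      exact Nat.one_le_iff_ne_zero.2 fun h => hcon (Nat.dvd_of_mod_eq_zero h)
    have hsl : s < ty P A i := by rw [hs]; exact Nat.mod_lt _ (by omega)
    have e : A ^ n = A ^ (ty P A i * (n / ty P A i)) * A ^ s := by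
      rw [← pow_add, hs, Nat.div_add_mod]
    have h3 : P.Pos i (A ^ (ty P A i * (n / ty P A i)) * (A ^ s - 1)) := by
      have e2 : A ^ (ty P A i * (n / ty P A i)) * (A ^ s - 1) =
          (A ^ n - 1) - (A ^ (ty P A i * (n / ty P A i)) - 1) := by rw [e]; ring
      rw [e2]
      exact h.sub (hq _)
    have h4 : P.Pos i (A ^ s - 1) := by
      rcases h3 with h3 | h3
      · rcases mul_eq_zero.1 h3 with h5 | h5
        · exact absurd h5 (pow_ne_zero _ hv.1)
        · exact Or.inl h5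
      · rcases eq_or_ne (A ^ s - 1) 0 with h5 | h5
        · exact Or.inl h5
        · rw [P.v_mul i _ _ (pow_ne_zero _ hv.1) h5, P.v_pow i hv.1, hv.2, mul_zero, zero_add] at h3
          exact Or.inr h3
    have h5 : ty P A i ≤ s := Nat.sInf_le ⟨hs0, h4⟩
    omega
  · rintro ⟨q, rfl⟩
    exact hq q

theorem not_dvd_ty : ¬ P.r i ∣ ty P A i := by
  obtain ⟨m, h1, h2, h3⟩ := id hm
  intro h
  exact h2 (h.trans ((pos_iff hv hm m).1 h3))

theorem coprime_ty : Nat.Coprime (P.r i) (ty P A i) :=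
  (Nat.Prime.coprime_iff_not_dvd (P.r_prime i)).2 (not_dvd_ty hv hm)

theorem nn_sub (n : ℕ) : P.NN i (A ^ n - 1) := by
  rw [sub_eq_add_neg]; exact ((nnA hv hm).pow n).add nn_one.neg

theorem nn_add' (n : ℕ) : P.NN i (A ^ n + 1) := ((nnA hv hm).pow n).add nn_one

/-- both -/
theorem pos_two (n : ℕ) (h : P.Pos i (A ^ n - 1)) (h' : P.Pos i (A ^ n + 1)) : P.r i = 2 := by
  have h2 : P.Pos i ((2 : ℕ) : K) := by
    have e : ((2 : ℕ) : K) = (A ^ n + 1) - (A ^ n - 1) := by push_cast; ring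
    rw [e]; exact h'.sub h
  rw [pos_nat (by norm_num)] at h2
  exact (Nat.prime_dvd_prime_iff_eq (P.r_prime i) Nat.prime_two).1 h2

theorem pos_add_of_two (hr : P.r i = 2) (n : ℕ) : P.Pos i (A ^ n + 1) ↔ P.Pos i (A ^ n - 1) := by
  have h2 : P.Pos i ((2 : ℕ) : K) := (pos_nat (by norm_num)).2 (by rw [hr])
  constructor
  · intro h
    have e : A ^ n - 1 = (A ^ n + 1) - ((2 : ℕ) : K) := by push_cast; ring
    rw [e]; exact h.sub h2
  · intro h
    have e : A ^ n + 1 = (A ^ n - 1) + ((2 : ℕ) : K) := by push_cast; ring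
    rw [e]; exact h.add h2

theorem pos_two_mul (n : ℕ) (h : P.Pos i (A ^ n + 1)) : P.Pos i (A ^ (2 * n) - 1) := by
  have e : A ^ (2 * n) - 1 = (A ^ n + 1) * (A ^ n - 1) := by rw [two_mul, pow_add]; ring
  rw [e]
  exact h.mul_nn (nn_sub hv hm n)

theorem pos_half {n : ℕ} (h : P.Pos i (A ^ (2 * n) - 1)) (h' : ¬ P.Pos i (A ^ n - 1)) :
    P.Pos i (A ^ n + 1) := by
  have e : A ^ (2 * n) - 1 = (A ^ n - 1) * (A ^ n + 1) := by rw [two_mul, pow_add]; ring
  rw [e] at h
  obtain ⟨h1, h2⟩ := v_eq_zero (nn_sub hv hm n) h'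
  rcases eq_or_ne (A ^ n + 1) 0 with h3 | h3
  · exact Or.inl h3
  · rcases h with h | h
    · rcases mul_eq_zero.1 h with h4 | h4
      · exact absurd h4 h2
      · exact absurd h4 h3
    · rw [P.v_mul i _ _ h2 h3, h1, zero_add] at h
      exact Or.inr h

/-- the half order -/
noncomputable def hty (P : Places K) (A : K) (i : P.I) : ℕ :=
  if P.r i = 2 then ty P A i else if 2 ∣ ty P A i then ty P A i / 2 else 0

theorem pos_add_iff {n : ℕ} (hn : Odd n) : P.Pos i (A ^ n + 1) ↔ hty P A i ∣ n := by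
  have hn0 : n ≠ 0 := by rintro rfl; simp at hn
  unfold hty
  split_ifs with h1 h2
  · rw [pos_add_of_two hv hm h1, pos_iff hv hm]
  · obtain ⟨h, hh⟩ := h2
    have hd : ty P A i / 2 = h := by omega
    rw [hd]
    constructor
    · intro h3
      have h4 := (pos_iff hv hm _).1 (pos_two_mul hv hm n h3)
      rw [hh] at h4
      exact Nat.dvd_of_mul_dvd_mul_left (by norm_num) h4
    · rintro ⟨m, rfl⟩
      refine pos_half hv hm ?_ ?_
      · rw [pos_iff hv hm, hh]
        exact ⟨m, by ring⟩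
      · rw [pos_iff hv hm, hh]
        rintro ⟨c, hc⟩
        rw [hc] at hn
        have : ¬ Odd (2 * h * c) := by
          rw [Nat.not_odd_iff_even, mul_assoc]; exact even_two_mul _
        exact this hn
  · constructor
    · intro h3
      have h4 := (pos_iff hv hm _).1 (pos_two_mul hv hm n h3)
      have hodd : Nat.Coprime (ty P A i) 2 := by
        rw [Nat.coprime_comm]
        exact (Nat.Prime.coprime_iff_not_dvd Nat.prime_two).2 h2
      have h5 := hodd.dvd_of_dvd_mul_left h4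
      exact absurd (pos_two hv hm n ((pos_iff hv hm n).2 h5) h3) h1
    · intro h3
      exact absurd (zero_dvd_iff.1 h3) hn0

theorem hty_coprime (h : hty P A i ≠ 0) : Nat.Coprime (P.r i) (hty P A i) := by
  have h1 := coprime_ty hv hm
  unfold hty at h ⊢
  split_ifs at h ⊢ with h2 h3
  · exact h1
  · exact Nat.Coprime.coprime_dvd_right (Nat.div_dvd_of_dvd h3) h1
  · exact absurd rfl h

/-- values of `A ^ d - 1` -/
theorem val_sub (hA1 : ∀ n, 1 ≤ n → A ^ n ≠ 1) {d : ℕ} (hd0 : d ≠ 0) (hd : Squarefree d) :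
    P.v i (A ^ d - 1) = (if ty P A i ∣ d then P.v i (A ^ ty P A i - 1) else 0) +
      (if P.r i * ty P A i ∣ d then P.v i (A ^ (P.r i * ty P A i) - 1) -
        P.v i (A ^ ty P A i - 1) else 0) := by
  obtain ⟨ht1, ht2⟩ := ty_spec hv hm
  by_cases h : ty P A i ∣ d
  · obtain ⟨m, rfl⟩ := h
    have hm0 : m ≠ 0 := by rintro rfl; exact hd0 (mul_zero _)
    rw [if_pos (dvd_mul_right _ _)]
    by_cases h2 : P.r i ∣ m
    · obtain ⟨m', rfl⟩ := h2
      rw [if_pos ⟨m', by ring⟩]
      have h3 : ¬ P.r i ∣ m' := by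
        rintro ⟨c, rfl⟩
        have h4 : IsUnit (P.r i) := hd _ ⟨ty P A i * c, by ring⟩
        rw [Nat.isUnit_iff] at h4
        exact (P.r_prime i).one_lt.ne' h4
      have e : A ^ (ty P A i * (P.r i * m')) = (A ^ (P.r i * ty P A i)) ^ m' := by
        rw [← pow_mul]; congr 1; ring
      have h5 : P.Pos i (A ^ (P.r i * ty P A i) - 1) := (pos_iff hv hm _).2 (dvd_mul_left _ _)
      rw [e, v_pow_sub_one h5 (hA1 _ (Nat.mul_pos (P.r_prime i).pos ht1)) h3]
      ring
    · rw [if_neg, add_zero, pow_mul, v_pow_sub_one ht2 (hA1 _ ht1) h2]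
      intro h3
      have h4 : P.r i ∣ ty P A i * m := (dvd_mul_right _ _).trans h3
      exact h2 ((coprime_ty hv hm).dvd_of_dvd_mul_left h4)
  · rw [if_neg h, if_neg (fun h2 => h ((dvd_mul_left _ _).trans h2)), add_zero]
    exact (v_eq_zero (nn_sub hv hm d) (fun h2 => h ((pos_iff hv hm d).1 h2))).1

/-- values of `A ^ d + 1` -/
theorem val_add (hA1 : ∀ n, 1 ≤ n → A ^ n ≠ 1) {d : ℕ} (hodd : Odd d) (hd : Squarefree d) :
    P.v i (A ^ d + 1) = (if hty P A i ∣ d then P.v i (A ^ hty P A i + 1) else 0) +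
      (if P.r i * hty P A i ∣ d then P.v i (A ^ (P.r i * hty P A i) + 1) -
        P.v i (A ^ hty P A i + 1) else 0) := by
  have hd0 : d ≠ 0 := by rintro rfl; simp at hodd
  have hAm : ∀ n, 1 ≤ n → A ^ n ≠ -1 := by
    intro n hn h
    apply hA1 (2 * n) (by omega)
    rw [two_mul, pow_add, h]; ring
  by_cases h : hty P A i ∣ d
  · have hh0 : hty P A i ≠ 0 := by
      intro h0
      rw [h0] at h
      exact hd0 (zero_dvd_iff.1 h)
    obtain ⟨m, hm'⟩ := h
    have hodd2 : Odd (hty P A i) ∧ Odd m := Nat.odd_mul.1 (hm' ▸ hodd)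
    have hm0 : m ≠ 0 := by rintro rfl; exact hd0 (by rw [hm', mul_zero])
    rw [if_pos ⟨m, hm'⟩]
    by_cases h2 : P.r i ∣ m
    · obtain ⟨m', hm''⟩ := h2
      have hoddm : Odd (P.r i) ∧ Odd m' := Nat.odd_mul.1 (hm'' ▸ hodd2.2)
      rw [if_pos ⟨m', by rw [hm', hm'']; ring⟩]
      have h3 : ¬ P.r i ∣ m' := by
        rintro ⟨c, hc⟩
        have h4 : IsUnit (P.r i) := hd _ ⟨hty P A i * c, by rw [hm', hm'', hc]; ring⟩
        rw [Nat.isUnit_iff] at h4
        exact (P.r_prime i).one_lt.ne' h4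
      have e : A ^ d = (A ^ (P.r i * hty P A i)) ^ m' := by
        rw [← pow_mul, hm', hm'']; congr 1; ring
      have h5 : P.Pos i (A ^ (P.r i * hty P A i) + 1) :=
        (pos_add_iff hv hm (hoddm.1.mul hodd2.1)).2 (dvd_mul_left _ _)
      rw [e, v_pow_add_one h5 (hAm _ (Nat.mul_pos (P.r_prime i).pos (Nat.pos_of_ne_zero hh0)))
        h3 hoddm.2]
      ring
    · have h5 : P.Pos i (A ^ hty P A i + 1) := (pos_add_iff hv hm hodd2.1).2 dvd_rfl
      rw [if_neg, add_zero, hm', pow_mul,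
        v_pow_add_one h5 (hAm _ (Nat.pos_of_ne_zero hh0)) h2 hodd2.2]
      intro h3
      have h4 : P.r i ∣ hty P A i * m := by rw [← hm']; exact (dvd_mul_right _ _).trans h3
      exact h2 ((hty_coprime hv hm hh0).dvd_of_dvd_mul_left h4)
  · rw [if_neg h, if_neg (fun h2 => h ((dvd_mul_left _ _).trans h2)), add_zero]
    exact (v_eq_zero (nn_add' hv hm d) (fun h2 => h ((pos_add_iff hv hm hodd).1 h2))).1

end

end Places

/-- Moebius inversion of a divisibility condition -/
theorem mob_sum {k c : ℕ} (hk : k ≠ 0) (x : ℤ) :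
    ∑ d ∈ k.divisors, μ (k / d) * (if c ∣ d then x else 0) = if k = c then x else 0 := by
  by_cases hc : c ∣ k
  · obtain ⟨m, rfl⟩ := hc
    have hc0 : c ≠ 0 := by rintro rfl; simp at hk
    have hm0 : m ≠ 0 := by rintro rfl; simp at hk
    have e : ∑ d ∈ (c * m).divisors, μ (c * m / d) * (if c ∣ d then x else 0) =
        ∑ d ∈ m.divisors, μ (m / d) * x := by
      rw [← Finset.sum_filter_add_sum_filter_not (c * m).divisors (fun d => c ∣ d)]
      have e1 : ∑ d ∈ (c * m).divisors with ¬ c ∣ d, μ (c * m / d) * (if c ∣ d then x else 0) = 0 := by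
        refine Finset.sum_eq_zero fun d hd => ?_
        rw [if_neg (Finset.mem_filter.1 hd).2, mul_zero]
      rw [e1, add_zero]
      symm
      refine Finset.sum_bij (fun d _ => c * d) ?_ ?_ ?_ ?_
      · intro d hd
        rw [Nat.mem_divisors] at hd
        rw [Finset.mem_filter, Nat.mem_divisors]
        exact ⟨⟨mul_dvd_mul_left c hd.1, mul_ne_zero hc0 hm0⟩, dvd_mul_right _ _⟩
      · intro a _ b _ hab
        exact Nat.eq_of_mul_eq_mul_left (Nat.pos_of_ne_zero hc0) hab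
      · intro b hb
        rw [Finset.mem_filter, Nat.mem_divisors] at hb
        obtain ⟨d, rfl⟩ := hb.2
        exact ⟨d, Nat.mem_divisors.2 ⟨Nat.dvd_of_mul_dvd_mul_left (Nat.pos_of_ne_zero hc0)
          hb.1.1, hm0⟩, rfl⟩
      · intro d hd
        rw [if_pos (dvd_mul_right _ _), Nat.mul_div_mul_left _ _ (Nat.pos_of_ne_zero hc0)]
    rw [e, ← Finset.sum_mul]
    have e2 : ∑ d ∈ m.divisors, μ (m / d) = ∑ d ∈ m.divisors, μ d := by
      rw [Nat.sum_div_divisors m (fun d => μ d)]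
    rw [e2]
    have e3 : ∑ d ∈ m.divisors, μ d = if m = 1 then 1 else 0 := by
      rw [← coe_mul_zeta_apply, moebius_mul_coe_zeta, one_apply]
    rw [e3]
    by_cases h1 : m = 1
    · subst h1; simp
    · rw [if_neg h1, if_neg, zero_mul]
      intro h2
      apply h1
      have : c * m = c * 1 := by rw [h2, mul_one]
      exact Nat.eq_of_mul_eq_mul_left (Nat.pos_of_ne_zero hc0) this
  · rw [if_neg (fun h : k = c => hc (by rw [h]))]
    refine Finset.sum_eq_zero fun d hd => ?_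
    rw [if_neg (fun h => hc (h.trans (Nat.dvd_of_mem_divisors hd))), mul_zero]

end Vale.Agent.P027.TD
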